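import Vale.Agent.P366M.Ext

/-!
# P366DV: the developing map; the statements
-/

open Set
open scoped ContDiff
open Vale.Agent.P366.Stmt (E BigO)
open Vale.Agent.P366M

noncomputable section

namespace Vale.Agent.P366DV

variable {n : ℕ} {M : Type}

/-- `h` is a smooth Riemannian metric on the open set `U` -/
structure MOn [Mf0 n M] (h : Fld n M) (U : Set M) : Prop where
  op : IsOpen U
  sm : ∀ x ∈ U, ∀ i j, ContDiffAt ℝ ∞ (fun y => rep (ch x) h y i j) (pt x)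
  sy : ∀ x ∈ U, ∀ i j, h x i j = h x j i
  pos : ∀ x ∈ U, (mat h x).PosDef

/-- `U` contains the end, and `V` tends to `v` at the frontier of `U` -/
structure Out [Mfe n M] (U : Set M) (V : M → ℝ) (v : ℝ) : Prop where
  far : ∃ R, ∀ x : M, R < ‖px x‖ → x ∈ U
  gt : ∀ x ∈ U, v < V x
  cpt : ∀ t > v, ∀ R, IsCompact {x ∈ U | t ≤ V x ∧ ‖px x‖ ≤ R}

/-- `h` tends to a constant metric in the end -/
def Lim [Mfe n M] (h : Fld n M) (q : ℝ) : Prop := ∃ h0 : Matrix (Fin n) (Fin n) ℝ, h0.PosDef ∧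
  ∀ i j k, BigO q (fun y => fe h y i j - h0 i j) ∧
    BigO (q + 1) (P366.Stmt.pd k fun y => fe h y i j)

/-- the Euclidean metric in the coordinates `y` -/
def em [Mf0 n M] (y : M → E n) : Fld n M := fun x i j =>
  ∑ k, pd i (fun z => y z k) x * pd j (fun z => y z k) x

/-- **DEV**: a cone which is asymptotically Euclidean is Euclidean -/
def DEV : Prop := ∀ (n : ℕ) (M : Type) [Mfe n M] (U : Set M) (h : Fld n M) (f : M → ℝ)
  (f0 q : ℝ), 3 ≤ n → MOn h U → Out U f f0 → 0 ≤ f0 → 0 < q → Lim h q →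
  (∀ x ∈ U, CAt ∞ f x ∧ hess h f x = h x ∧ ip h f f x = 2 * f x) →
  ∃ y : M → E n, (∀ x ∈ U, CAt ∞ y x ∧ ‖y x‖ ^ 2 = 2 * f x ∧ h x = em y x) ∧
    BijOn y U {z | 2 * f0 < ‖z‖ ^ 2}

/-- the function `m / (2 r ^ (n - 2))` -/
def uu (m : ℝ) (z : E n) : ℝ := m / (2 * ‖z‖ ^ ((n : ℝ) - 2))

/-- the mass which belongs to the surface gravity `κ` -/
def ms (n : ℕ) (κ : ℝ) : ℝ := ((n - 2) / (2 * κ)) ^ ((n : ℝ) - 2) / 2

/-- the output of the Robinson identity -/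
structure Stat [Mfe n M] (U : Set M) (h : Fld n M) (V : M → ℝ) (κ q : ℝ) : Prop where
  met : MOn h U
  out : Out U V 0
  κ0 : 0 < κ
  q0 : 0 < q
  lim : Lim h q
  v0 : BigO q fun y => fe V y - 1
  v1 : ∀ k, BigO (q + 1) (P366.Stmt.pd k (fe V))
  sm : ∀ x ∈ U, CAt ∞ V x
  lt : ∀ x ∈ U, V x < 1
  ip : ∀ x ∈ U, ip h V V x = κ ^ 2 * (1 - V x ^ 2) ^ (2 * ((n : ℝ) - 1) / (n - 2))
  hess : ∀ x ∈ U, ∀ i j, hess h V x i j = -(2 * n * V x / ((n - 2) * (1 - V x ^ 2))) *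
    (pd i V x * pd j V x - P366M.ip h V V x / n * h x i j)

/-- `y` are isotropic coordinates of Schwarzschild–Tangherlini with mass `m` -/
structure Iso [Mf0 n M] (U : Set M) (h : Fld n M) (V : M → ℝ) (m : ℝ) (y : M → E n) : Prop where
  sm : ∀ x ∈ U, CAt ∞ y x
  V : ∀ x ∈ U, V x = (1 - uu m (y x)) / (1 + uu m (y x))
  h : ∀ x ∈ U, ∀ i j, h x i j = (1 + uu m (y x)) ^ (4 / ((n : ℝ) - 2)) * em y x i j
  bij : BijOn y U {z | m / 2 < ‖z‖ ^ ((n : ℝ) - 2)}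

/-- **ISO**: the isotropic coordinates exist -/
def ISO : Prop := ∀ (n : ℕ) (M : Type) [Mfe n M] (U : Set M) (h : Fld n M) (V : M → ℝ)
  (κ q : ℝ), 3 ≤ n → Stat U h V κ q → ∃ y, Iso U h V (ms n κ) y

/-- no weakly trapped cut lies in the interior -/
def Outer [Mfe n M] (D : Exterior n M) : Prop := ¬∃ G, IsExt G ∧ (∀ x, 0 ≤ G x → 0 < D.F x) ∧
  ∀ x, G x = 0 → thetaPlus D.g D.K G x ≤ 0

/-- near `x` the frontier of `U` is a smooth weakly trapped hypersurface; it is a part of the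
boundary of the domain if `x` is in the boundary -/
def Edge [Mfe n M] (D : Exterior n M) (U : Set M) (x : M) : Prop := ∃ u : M → ℝ,
  (∀ᶠ z in nhds x, CAt ∞ u z ∧ (z ∈ U ↔ 0 < u z) ∧ (u z = 0 → thetaPlus D.g D.K u z ≤ 0) ∧
    (D.F x = 0 → u z = 0 → D.F z = 0)) ∧ ∃ i, pd i u x ≠ 0

/-- **FIN**: `U` is the interior of the domain -/
def FIN : Prop := ∀ (n : ℕ) (M : Type) [Mfe n M] (D : Exterior n M) (U : Set M) (V : M → ℝ)
  (v : ℝ), Outer D → IsOpen U → (∀ x ∈ U, 0 < D.F x) → (∀ x ∈ frontier U, Edge D U x) →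
  Out U V v → ContinuousOn V U → (∃ t > v, ∃ R, ∀ x : M, R < ‖px x‖ → t ≤ V x) →
  IsPreconnected U → (∀ t, IsPreconnected {x ∈ U | V x < t}) → U = {x | 0 < D.F x}

/-- **S3A**: both together -/
def S3A : Prop := ∀ (n : ℕ) (M : Type) [Mfe n M] (D : Exterior n M) (U : Set M) (h : Fld n M)
  (V : M → ℝ) (κ q : ℝ), 3 ≤ n → Outer D → (∀ x ∈ U, 0 < D.F x) →
  (∀ x ∈ frontier U, Edge D U x) → Stat U h V κ q →
  U = {x | 0 < D.F x} ∧ ∃ y, Iso U h V (ms n κ) y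

end Vale.Agent.P366DV
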