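import Vale.Agent.P366M.Map
import Vale.Agent.P255.Ode
import Mathlib.Analysis.ODE.ExistUnique

/-!
# P366DV: integral curves of a vector field on an open set of a manifold
-/

open Set Filter Topology Metric
open scoped ContDiff
open Vale.Agent.P366 Vale.Agent.P366.Stmt
open Vale.Agent.P366M

noncomputable section

namespace Vale.Agent.P366DV

variable {n : ℕ} {M : Type} [Mf0 n M] {U : Set M} {x p : M} {e e' : Ch n M} {y : E n}
  {Z : Fin n → M → ℝ} {c c' d : ℝ → M} {t s T ε : ℝ}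

/-! ### smooth maps into the manifold -/

section SP

variable {F G : Type} [NormedAddCommGroup F] [NormedSpace ℝ F] [NormedAddCommGroup G]
  [NormedSpace ℝ G] {Y Y' : F → M} {w : F}

/-- the map `Y` is smooth at `w` -/
structure SP (Y : F → M) (w : F) : Prop where
  ct : ContinuousAt Y w
  sm : ContDiffAt ℝ ∞ (fun z => ch (Y w) (Y z)) w

theorem SP.cAt (h : SP Y w) {u : M → G} (hu : CAt ∞ u (Y w)) :
    ContDiffAt ℝ ∞ (fun z => u (Y z)) w := by
  refine (ContDiffAt.comp (g := loc (ch (Y w)) u) (f := fun z => ch (Y w) (Y z)) w hu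
    h.sm).congr_of_eventuallyEq ?_
  filter_upwards [h.ct.eventually (chart_source_mem_nhds (E n) _)] with z hz
  simp only [Function.comp, loc, (ch (Y w)).left_inv hz]

theorem cAt_chart (he : e ∈ At M) (hx : x ∈ e.source) : CAt ∞ e x :=
  tm_cd (ch_mem x) he (by rwa [symm_pt])

theorem sp_symm (he : e ∈ At M) {φ : F → E n} (h : ContDiffAt ℝ ∞ φ w) :
    SP (fun z => e.symm (φ z)) w :=
  ⟨(cont_symm he).continuousAt.comp h.continuousAt,
    (tm_cd he (ch_mem _) (mem_ch _)).comp w h⟩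

theorem SP.congr (h : SP Y w) (e : Y' =ᶠ[𝓝 w] Y) : SP Y' w :=
  ⟨h.ct.congr e.symm, by
    rw [e.self_of_nhds]
    exact h.sm.congr_of_eventuallyEq (e.mono fun z hz => by simp only [hz])⟩

theorem SP.comp {σ : G → F} {z : G} (h : SP Y (σ z)) (hσ : ContDiffAt ℝ ∞ σ z) :
    SP (fun w => Y (σ w)) z := ⟨h.ct.comp hσ.continuousAt, h.sm.comp z hσ⟩

/-- a family of maps which is smooth at `(t, p)` -/
def S2 (Φ : ℝ × M → M) (t : ℝ) (p : M) : Prop :=
  SP (fun q : ℝ × E n => Φ (q.1, (ch p).symm q.2)) (t, pt p)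

theorem S2.comp {Φ : ℝ × M → M} {τ : F → ℝ} (h : S2 Φ (τ w) (Y w)) (hτ : ContDiffAt ℝ ∞ τ w)
    (hY : SP Y w) : SP (fun z => Φ (τ z, Y z)) w := by
  refine (SP.comp (σ := fun z => (τ z, ch (Y w) (Y z))) h (hτ.prodMk hY.sm)).congr ?_
  filter_upwards [hY.ct.eventually (chart_source_mem_nhds (E n) _)] with z hz
  simp only [(ch (Y w)).left_inv hz]

theorem tendsto_prod_pt (t : ℝ) (p : M) :
    Tendsto (fun q : ℝ × E n => (q.1, (ch p).symm q.2)) (𝓝 (t, pt p)) (𝓝 (t, p)) :=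
  (continuous_fst.tendsto _).prodMk_nhds ((tendsto_pt p).comp (continuous_snd.tendsto _))

theorem S2.congr {Φ Ψ : ℝ × M → M} (h : S2 Φ t p) (e : Ψ =ᶠ[𝓝 (t, p)] Φ) : S2 Ψ t p :=
  SP.congr h ((tendsto_prod_pt t p).eventually e)

theorem S2.ct {Φ : ℝ × M → M} (h : S2 Φ t p) : ContinuousAt Φ (t, p) := by
  have h1 : ContinuousAt (fun q : ℝ × M => (q.1, ch p q.2)) (t, p) := continuousAt_fst.prodMk
    (ContinuousAt.comp (g := ch p) ((ch p).continuousAt (mem_ch p)) continuousAt_snd)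
  refine (ContinuousAt.comp (f := fun q : ℝ × M => (q.1, ch p q.2)) (x := (t, p))
    (g := fun q : ℝ × E n => Φ (q.1, (ch p).symm q.2)) (SP.ct h) h1).congr ?_
  filter_upwards [continuousAt_snd.eventually (chart_source_mem_nhds (E n) p)] with z hz
  simp only [Function.comp, (ch p).left_inv hz]

end SP

/-! ### curves -/

/-- the vector field in a chart -/
def vec (Z : Fin n → M → ℝ) (e : Ch n M) (y : E n) : E n := WithLp.toLp 2 fun i => repV e Z i y

/-- the vector in the preferred chart -/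
def vx (Z : Fin n → M → ℝ) (x : M) : E n := WithLp.toLp 2 fun i => Z i x

theorem vec_pt (Z : Fin n → M → ℝ) (x : M) : vec Z (ch x) (pt x) = vx Z x := by
  simp only [vec, repV_pt, vx]

theorem fderiv_jac {τ : E n → E n} (h : DifferentiableAt ℝ τ y) (v : E n) (k : Fin n) :
    fderiv ℝ τ y v k = ∑ i, jac τ y k i * v i := by
  have h4 : HasFDerivAt (fun z => τ z k) ((EuclideanSpace.proj (𝕜 := ℝ) k).comp (fderiv ℝ τ y)) y :=
    (EuclideanSpace.proj (𝕜 := ℝ) k).hasFDerivAt.comp y h.hasFDerivAt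
  have := P366Z.fderiv_eq_sum h4.differentiableAt v
  rw [h4.fderiv] at this
  exact this.trans (Finset.sum_congr rfl fun i _ => mul_comm _ _)

theorem vec_tm (he : e ∈ At M) (he' : e' ∈ At M) (h : e.symm y ∈ e'.source) :
    fderiv ℝ (tm e e') y (vec Z e y) = vec Z e' (tm e e' y) := by
  ext k
  rw [fderiv_jac (tm_diff he he' h)]
  exact (P366P.Chg.c3 ⟨tm_cd he he' h, jac_unit he he' h⟩).vec_mul (X := repV e' Z)
    (X' := repV e Z) (repV_tm Z he he' h) k

/-- the curve `c` solves the equation at the time `t` -/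
structure Crv (Z : Fin n → M → ℝ) (c : ℝ → M) (t : ℝ) : Prop where
  ct : ContinuousAt c t
  ode : HasDerivAt (fun s => ch (c t) (c s)) (vx Z (c t)) t

theorem Crv.deriv {V : Type} [NormedAddCommGroup V] [NormedSpace ℝ V] {u : M → V} (h : Crv Z c t)
    (hu : DAt u (c t)) : HasDerivAt (fun s => u (c s)) (fd u (c t) (vx Z (c t))) t := by
  refine (hu.hasFDerivAt.comp_hasDerivAt t h.ode).congr_of_eventuallyEq ?_
  filter_upwards [h.ct.eventually (chart_source_mem_nhds (E n) _)] with z hz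
  simp only [Function.comp, loc, (ch (c t)).left_inv hz]

theorem Crv.lc (h : Crv Z c t) (he : e ∈ At M) (hm : c t ∈ e.source) :
    HasDerivAt (fun s => e (c s)) (vec Z e (e (c t))) t := by
  have h1 := h.deriv ((cAt_chart he hm).differentiableAt (by simp))
  have h2 := vec_tm (Z := Z) (ch_mem (c t)) he (y := pt (c t)) (by rwa [symm_pt])
  rw [vec_pt] at h2
  have h3 : tm (ch (c t)) e (pt (c t)) = e (c t) := by rw [tm, symm_pt]
  rw [← h3, ← h2]
  exact h1

theorem crv_symm (he : e ∈ At M) {γ : ℝ → E n} (h : HasDerivAt γ (vec Z e (γ t)) t) :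
    Crv Z (fun s => e.symm (γ s)) t := by
  refine ⟨(cont_symm he).continuousAt.comp h.continuousAt, ?_⟩
  have h1 := (tm_diff he (ch_mem _) (mem_ch (e.symm (γ t)))).hasFDerivAt.comp_hasDerivAt t h
  rw [vec_tm he (ch_mem _) (mem_ch _), tm_pt, vec_pt] at h1
  exact h1

theorem Crv.congr (h : Crv Z c t) (e : c' =ᶠ[𝓝 t] c) : Crv Z c' t :=
  ⟨h.ct.congr e.symm, by
    rw [e.self_of_nhds]
    exact h.ode.congr_of_eventuallyEq (e.mono fun z hz => by simp only [hz])⟩

theorem Crv.shift (h : Crv Z c (t + s)) : Crv Z (fun r => c (r + s)) t :=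
  ⟨h.ct.comp (f := fun r => r + s) (by fun_prop), h.ode.comp_add_const t s⟩

/-- a vector field which is smooth on an open set -/
structure VOn (Z : Fin n → M → ℝ) (U : Set M) : Prop where
  op : IsOpen U
  sm : ∀ e ∈ At M, ∀ y, e.symm y ∈ U → ContDiffAt ℝ ∞ (vec Z e) y

/-- the curve solves the equation near the time `t` -/
def Ce (Z : Fin n → M → ℝ) (U : Set M) (c : ℝ → M) (t : ℝ) : Prop :=
  c t ∈ U ∧ ∀ᶠ s in 𝓝 t, Crv Z c s

theorem Ce.congr (h : Ce Z U c t) (e : c' =ᶠ[𝓝 t] c) : Ce Z U c' t :=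
  ⟨e.self_of_nhds ▸ h.1, (h.2.and e.eventuallyEq_nhds).mono fun _ a => a.1.congr a.2⟩

theorem Ce.shift (h : Ce Z U c (t + s)) : Ce Z U (fun r => c (r + s)) t :=
  ⟨h.1, (((continuous_add_const s).tendsto t).eventually h.2).mono fun _ a => a.shift⟩

theorem Ce.crv (h : Ce Z U c t) : Crv Z c t := h.2.self_of_nhds

theorem uniq_loc (hZ : VOn Z U) (h : Ce Z U c t) (h' : Ce Z U c' t) (e0 : c t = c' t) :
    c =ᶠ[𝓝 t] c' := by
  have he := ch_mem (c t)
  obtain ⟨K, S, hS, hK⟩ := ((hZ.sm _ he (pt (c t)) (by rw [symm_pt]; exact h.1)).of_le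
    (m := 1) (by simp)).exists_lipschitzOnWith
  have k : ∀ {d : ℝ → M}, Ce Z U d t → c t = d t → ∀ᶠ s in 𝓝 t, d s ∈ (ch (c t)).source ∧
      HasDerivAt (fun s => ch (c t) (d s)) (vec Z (ch (c t)) (ch (c t) (d s))) s ∧
        ch (c t) (d s) ∈ S := fun {d} a b => by
    have m : d t ∈ (ch (c t)).source := b ▸ mem_ch _
    filter_upwards [a.2, a.crv.ct.eventually ((ch (c t)).open_source.mem_nhds m),
      (a.crv.lc he m).continuousAt.eventually (show S ∈ 𝓝 (ch (c t) (d t)) from b ▸ hS)]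
      with s u v w using ⟨v, u.lc he v, w⟩
  have := ODE_solution_unique_of_eventually (K := K) (v := fun _ => vec Z (ch (c t)))
    (s := fun _ => S) (.of_forall fun _ => hK) ((k h rfl).mono fun _ a => a.2)
    ((k h' e0).mono fun _ a => a.2) (by simp only [e0])
  filter_upwards [this, k h rfl, k h' e0] with s a b b'
  exact (ch (c t)).injOn b.1 b'.1 a

/-- **uniqueness** on a connected set of times -/
theorem uniq (hZ : VOn Z U) {S : Set ℝ} (hS : IsPreconnected S) (h0 : s ∈ S)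
    (h : ∀ t ∈ S, Ce Z U c t) (h' : ∀ t ∈ S, Ce Z U c' t) (e0 : c s = c' s) :
    ∀ t ∈ S, c =ᶠ[𝓝 t] c' :=
  hS.subset_of_closure_inter_subset isOpen_setOfPred_eventually_nhds
    ⟨s, h0, uniq_loc hZ (h s h0) (h' s h0) e0⟩ fun t m => uniq_loc hZ (h t m.2) (h' t m.2)
      (tendsto_nhds_unique_of_frequently_eq (h t m.2).crv.ct (h' t m.2).crv.ct
        ((mem_closure_iff_frequently.1 m.1).mono fun _ a => EventuallyEq.eq_of_nhds a))

/-- **the local flow** -/
theorem loc_flow (hZ : VOn Z U) (hx : x ∈ U) : ∃ ε > 0, ∃ φ : ℝ × M → M, ∀ᶠ p in 𝓝 x,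
    φ (0, p) = p ∧ ∀ t, |t| < ε → Ce Z U (fun s => φ (s, p)) t ∧ S2 φ t p := by
  have he := ch_mem x
  obtain ⟨ε, hε, W, w1, w2, Φ, h0, h1, h2⟩ := P255.exists_flow_smooth (vec Z (ch x))
    ((ch x).symm ⁻¹' U) (hZ.op.preimage (cont_symm he))
    (fun y hy => (hZ.sm _ he y hy).contDiffWithinAt) (pt x) (by rwa [mem_preimage, symm_pt])
  refine ⟨ε, hε, fun q => (ch x).symm (Φ q.1 (ch x q.2)), ?_⟩
  filter_upwards [chart_source_mem_nhds (E n) x,
    ((ch x).continuousAt (mem_ch x)).eventually (w1.mem_nhds w2)] with p a b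
  refine ⟨by simp only [h0 _ b, (ch x).left_inv a], fun t ht => ⟨⟨(h1 _ b t (abs_lt.1 ht)).1, ?_⟩, ?_⟩⟩
  · filter_upwards [Ioo_mem_nhds (abs_lt.1 ht).1 (abs_lt.1 ht).2] with s hs
    exact crv_symm he (h1 _ b s hs).2
  · have k : tm (ch p) (ch x) (pt p) = ch x p := by rw [tm, symm_pt]
    refine sp_symm he (ContDiffAt.comp (g := fun p : ℝ × E n => Φ p.1 p.2)
      (f := fun q : ℝ × E n => (q.1, tm (ch p) (ch x) q.2)) _ (h2.contDiffAt ?_)
      (contDiffAt_fst.prodMk (ContDiffAt.comp (g := tm (ch p) (ch x)) _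
        (tm_cd (ch_mem p) he (by rwa [symm_pt])) contDiffAt_snd)))
    exact (isOpen_Ioo.prod w1).mem_nhds ⟨abs_lt.1 ht, k ▸ b⟩

/-! ### curves on an interval -/

/-- a solution from `x` up to the time `T` -/
def Cv (Z : Fin n → M → ℝ) (U : Set M) (x : M) (T : ℝ) (c : ℝ → M) : Prop :=
  c 0 = x ∧ ∀ t ∈ uIcc 0 T, Ce Z U c t

theorem Cv.uniq (hZ : VOn Z U) (h : Cv Z U x T c) (h' : Cv Z U x T c') :
    ∀ t ∈ uIcc 0 T, c =ᶠ[𝓝 t] c' :=
  P366DV.uniq hZ isPreconnected_uIcc left_mem_uIcc h.2 h'.2 (h.1.trans h'.1.symm)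

theorem Cv.mono (h : Cv Z U x T c) (ht : t ∈ uIcc 0 T) : Cv Z U x t c :=
  ⟨h.1, fun s hs => h.2 s (uIcc_subset_uIcc_left ht hs)⟩

theorem Cv.shift (h : Cv Z U x T c) (hs : s ∈ uIcc 0 T) (ht : t + s ∈ uIcc 0 T) :
    Cv Z U (c s) t fun r => c (r + s) :=
  ⟨by simp, fun r hr => Ce.shift (h.2 _ (ordConnected_uIcc.uIcc_subset hs ht (by
    simpa using mem_image_of_mem (fun x => x + s) hr)))⟩

/-- **continuation** -/
theorem Cv.ext (hZ : VOn Z U) (h : Cv Z U x s c) (h0 : d 0 = c s)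
    (hd : ∀ r, |r| < ε → Ce Z U d r) (ht : |t - s| < ε) :
    ∃ c', Cv Z U x t c' ∧ c' t = d (t - s) := by
  have ε0 := (abs_nonneg _).trans_lt ht
  have hd' : ∀ r, |r - s| < ε → Ce Z U (fun r => d (r + -s)) r := fun r hr => (hd _ hr).shift
  have o : IsOpen {r : ℝ | |r - s| < ε} := isOpen_lt (by fun_prop) continuous_const
  have u := P366DV.uniq hZ (S := uIcc 0 s ∩ ball s ε) (ordConnected_uIcc.inter
    (convex_ball s ε).ordConnected).isPreconnected ⟨right_mem_uIcc, mem_ball_self ε0⟩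
    (fun r hr => h.2 r hr.1) (fun r hr => hd' r hr.2) (by simp [h0])
  have k1 : ∀ r, |r - s| < ε → (fun r => if |r - s| < ε then d (r + -s) else c r) =ᶠ[𝓝 r]
      fun r => d (r + -s) := fun r hr => (o.eventually_mem hr).mono fun _ a => if_pos a
  have k2 : ∀ r ∈ uIcc 0 s, (fun r => if |r - s| < ε then d (r + -s) else c r) =ᶠ[𝓝 r] c :=
    fun r hr => by
      by_cases a : |r - s| < ε
      · exact (k1 r a).trans (u r ⟨hr, a⟩).symm
      filter_upwards [ball_mem_nhds r ε0] with z hz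
      split_ifs with b
      · refine (u z ⟨uIcc_subset_uIcc_right hr ?_, b⟩).eq_of_nhds.symm
        have b1 := abs_lt.1 b
        have b2 := abs_lt.1 (mem_ball_iff_norm.1 hz)
        rcases le_abs.1 (not_lt.1 a) with a | a
        · exact mem_uIcc_of_ge (by linarith [b2.1]) (by linarith [b1.2])
        · exact mem_uIcc_of_le (by linarith [b1.1]) (by linarith [b2.2])
      · rfl
  refine ⟨fun r => if |r - s| < ε then d (r + -s) else c r,
    ⟨(k2 0 left_mem_uIcc).eq_of_nhds.trans h.1, fun r hr => ?_⟩, if_pos ht⟩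
  rcases uIcc_subset_uIcc_union_uIcc (b := s) hr with a | a
  · exact (h.2 r a).congr (k2 r a)
  · have b := (abs_sub_left_of_mem_uIcc a).trans_lt ht
    exact (hd' r b).congr (k1 r b)

end Vale.Agent.P366DV
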