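import Vale.Agent.P366DV.Eu2

/-!
# P366DV: the limit of the rescaled flow
-/

open Set Filter Topology Metric
open scoped ContDiff

noncomputable section

namespace Vale.Agent.P366DV

variable {V : Type} [NormedAddCommGroup V] [NormedSpace ℝ V] [FiniteDimensional ℝ V]
  {B : V → V →L[ℝ] V →L[ℝ] ℝ} {Γ : V → V →L[ℝ] V →L[ℝ] V} {X : V → V} {z : V}
  {B0 : V →L[ℝ] V →L[ℝ] ℝ} {Φ : ℝ × V → V} {R C q s : ℝ}

/-- the rescaled flow, its derivative, and the limits -/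
def Ys (Φ : ℝ × V → V) (s : ℝ) (z : V) : V := Real.exp (-s) • Φ (s, z)
def As (Φ : ℝ × V → V) (s : ℝ) (z : V) : V →L[ℝ] V := Real.exp (-s) • Dw Φ (s, z)
def Yl (Φ : ℝ × V → V) (z : V) : V := limUnder atTop fun s => Ys Φ s z
def Al (Φ : ℝ × V → V) (z : V) : V →L[ℝ] V := limUnder atTop fun s => As Φ s z

theorem dexp1 (s : ℝ) : HasDerivAt (fun s => Real.exp (-s)) (-Real.exp (-s)) s := by
  simpa using dexp 1 s

theorem exp_mul_neg (s : ℝ) : Real.exp s * Real.exp (-s) = 1 := by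
  rw [← Real.exp_add, add_neg_cancel, Real.exp_zero]

omit [FiniteDimensional ℝ V] in
theorem norm_Φ (Φ : ℝ × V → V) (s : ℝ) (z : V) : ‖Φ (s, z)‖ = Real.exp s * ‖Ys Φ s z‖ := by
  rw [Ys, norm_smul, Real.norm_of_nonneg (Real.exp_pos _).le, ← mul_assoc, exp_mul_neg, one_mul]

namespace Fb

variable (h : Fb B Γ X B0 Φ R C q) (hz : 2 * R < ‖z‖)
include h hz

omit [FiniteDimensional ℝ V]

theorem le : R ≤ ‖z‖ := by linarith [h.fl.R1]

theorem Y0 : Ys Φ 0 z = z := by simp [Ys, h.fl.f0 z (h.le hz)]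

theorem dY (hs : 0 ≤ s) (k : ‖Ys Φ s z - z‖ ≤ ‖z‖ / 2) : Real.exp s * R ≤ ‖Φ (s, z)‖ ∧
    Sl X Φ s z ∧ HasDerivAt (fun s => Ys Φ s z) (Real.exp (-s) • (X (Φ (s, z)) - Φ (s, z))) s ∧
    ‖Real.exp (-s) • (X (Φ (s, z)) - Φ (s, z))‖ ≤ 3 / 32 * ‖z‖ * q * Real.exp (-(q * s)) := by
  have a1 : R ≤ ‖Ys Φ s z‖ := by linarith [norm_sub_norm_le z (Ys Φ s z), norm_sub_rev z (Ys Φ s z)]
  have a2 : Real.exp s * R ≤ ‖Φ (s, z)‖ := by
    rw [norm_Φ]; exact mul_le_mul_of_nonneg_left a1 (Real.exp_pos _).le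
  have a3 := (h.fl.sm z (h.le hz) s hs).2 (by nlinarith [Real.one_le_exp hs, h.fl.R1])
  refine ⟨a2, a3, ((dexp1 s).fun_smul a3.ode.self_of_nhds).congr_deriv (by module), ?_⟩
  have a4 := (h.bd s hs _ a2).1
  have a5 : ‖Ys Φ s z‖ ≤ 3 / 2 * ‖z‖ := by linarith [norm_sub_norm_le (Ys Φ s z) z]
  have a6 := mul_pos h.q0 (Real.exp_pos (-(q * s)))
  rw [norm_smul, Real.norm_of_nonneg (Real.exp_pos _).le]
  refine (mul_le_mul_of_nonneg_left a4 (Real.exp_pos _).le).trans ?_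
  rw [norm_Φ, mul_left_comm, ← mul_assoc (Real.exp (-s)), mul_comm (Real.exp (-s)), exp_mul_neg]
  nlinarith

theorem bY (hs : 0 ≤ s) : ‖Ys Φ s z - z‖ ≤ ‖z‖ / 2 := by
  have := fence (u := fun s => Ys Φ s z) (q := q) (K := ‖z‖ / 2) (by positivity)
    (fun s hs => (dexp1 s).differentiableAt.fun_smul (DifferentiableAt.comp (g := Φ)
      (f := fun s : ℝ => (s, z)) s ((h.fl.sm z (h.le hz) s hs).1.differentiableAt (by simp))
      (by fun_prop))) (fun s hs k => ?_) s hs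
  · rwa [h.Y0 hz] at this
  rw [h.Y0 hz] at k
  obtain ⟨-, -, a, b⟩ := h.dY hz hs k
  rw [a.deriv]
  have := mul_pos (mul_pos (show 0 < ‖z‖ by linarith [h.fl.R1]) h.q0) (Real.exp_pos (-(q * s)))
  linarith

theorem far (hs : 0 ≤ s) : Real.exp s * R ≤ ‖Φ (s, z)‖ := (h.dY hz hs (h.bY hz hs)).1

theorem sl (hs : 0 ≤ s) : Sl X Φ s z := (h.dY hz hs (h.bY hz hs)).2.1

theorem cn (hs : 0 ≤ s) : Cn B Γ X (Φ (s, z)) :=
  h.fl.cn _ (by nlinarith [Real.one_le_exp hs, h.fl.R1, h.far hz hs])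

omit h [NormedSpace ℝ V] in
theorem ev : ∀ᶠ w in 𝓝 z, 2 * R < ‖w‖ := (isOpen_lt continuous_const continuous_norm).mem_nhds hz

theorem hD (hs : 0 ≤ s) : HasFDerivAt (fun w => Φ (s, w)) (Dw Φ (s, z)) z :=
  has_Dw ((h.sl hz hs).sm.differentiableAt (by simp))

theorem D0 : Dw Φ (0, z) = ContinuousLinearMap.id ℝ V :=
  (h.hD hz le_rfl).unique ((hasFDerivAt_id z).congr_of_eventuallyEq
    ((ev hz).mono fun w hw => h.fl.f0 w (h.le hw)))

theorem A0 : As Φ 0 z = ContinuousLinearMap.id ℝ V := by simp [As, h.D0 hz]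

theorem dA (hs : 0 ≤ s) : HasDerivAt (fun s => As Φ s z)
    ((fderiv ℝ X (Φ (s, z)) - ContinuousLinearMap.id ℝ V).comp (As Φ s z)) s := by
  refine ((dexp1 s).fun_smul ((h.sl hz hs).var
    ((h.cn hz hs).sX.differentiableAt (by simp)))).congr_deriv ?_
  ext v
  simp [As, sub_eq_add_neg]

theorem nA (hs : 0 ≤ s) (k : ‖As Φ s z‖ ≤ 2) :
    ‖(fderiv ℝ X (Φ (s, z)) - ContinuousLinearMap.id ℝ V).comp (As Φ s z)‖ ≤
      1 / 8 * q * Real.exp (-(q * s)) := by
  have := mul_pos h.q0 (Real.exp_pos (-(q * s)))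
  refine (ContinuousLinearMap.opNorm_comp_le _ _).trans ((mul_le_mul (h.bd s hs _ (h.far hz hs)).2.1
    k (norm_nonneg _) (by linarith)).trans (by linarith))

theorem bA (hs : 0 ≤ s) : ‖As Φ s z‖ ≤ 2 := by
  have k : ∀ {s}, ‖As Φ s z - As Φ 0 z‖ ≤ 1 → ‖As Φ s z‖ ≤ 2 := fun {s} k => by
    rw [h.A0 hz] at k
    linarith [norm_sub_norm_le (As Φ s z) (ContinuousLinearMap.id ℝ V),
      ContinuousLinearMap.norm_id_le (𝕜 := ℝ) (E := V)]
  refine k (fence (u := fun s => As Φ s z) (q := q) zero_le_one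
    (fun s hs => (h.dA hz hs).differentiableAt) (fun s hs l => ?_) s hs)
  rw [(h.dA hz hs).deriv]
  linarith [h.nA hz hs (k l), mul_pos h.q0 (Real.exp_pos (-(q * s)))]

theorem hom (hs : 0 ≤ s) (u v : V) :
    B (Φ (s, z)) (Dw Φ (s, z) u) (Dw Φ (s, z) v) = Real.exp (2 * s) * B z u v := by
  have := fl_exp (t := s) (a := 2) fun r hr =>
    have r0 : 0 ≤ r := (uIcc_of_le hs ▸ hr).1
    (h.sl hz r0).hom (h.cn hz r0) u v
  simpa only [h.D0 hz, h.fl.f0 z (h.le hz), ContinuousLinearMap.id_apply] using this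

variable [FiniteDimensional ℝ V]

theorem cY : Tendsto (fun s => Ys Φ s z) atTop (𝓝 (Yl Φ z)) ∧
    ∀ s ≥ 0, ‖Ys Φ s z - Yl Φ z‖ ≤ 3 / 32 * ‖z‖ * Real.exp (-(q * s)) :=
  have := FiniteDimensional.complete ℝ V
  conv h.q0 (fun _ hs => (h.dY hz hs (h.bY hz hs)).2.2.1) fun _ hs => (h.dY hz hs (h.bY hz hs)).2.2.2

theorem cA : Tendsto (fun s => As Φ s z) atTop (𝓝 (Al Φ z)) ∧
    ∀ s ≥ 0, ‖As Φ s z - Al Φ z‖ ≤ 1 / 8 * Real.exp (-(q * s)) :=
  have := FiniteDimensional.complete ℝ V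
  conv h.q0 (fun _ hs => h.dA hz hs) fun _ hs => h.nA hz hs (h.bA hz hs)

theorem dYl : HasFDerivAt (Yl Φ) (Al Φ z) z :=
  lim_fd (F := Ys Φ) (F' := As Φ) (isOpen_lt continuous_const continuous_norm) h.q0
    (fun _ hs _ m => (h.hD m hs).fun_const_smul _) (fun _ m => (h.cY m).1)
    (fun s hs _ m => (h.cA m).2 s hs) hz

theorem dAl : HasFDerivAt (Al Φ) ((ContinuousLinearMap.compL ℝ V V V (Al Φ z)).comp (Γ z)) z := by
  refine lim_fd (F := As Φ) (K := 1 / 8 * C + 4 * C)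
    (F' := fun s z => Real.exp (-s) • fderiv ℝ (fderiv ℝ fun w => Φ (s, w)) z)
    (G' := fun z => (ContinuousLinearMap.compL ℝ V V V (Al Φ z)).comp (Γ z))
    (isOpen_lt continuous_const continuous_norm) h.q0 (fun s hs z m => ?_) (fun _ m => (h.cA m).1)
    (fun s hs z m => ?_) hz <;>
  have sm : ContDiffAt ℝ ∞ (fun w => Φ (s, w)) z :=
    ContDiffAt.comp (g := Φ) (f := fun w => (s, w)) z (h.sl m hs).sm (by fun_prop)
  · refine HasFDerivAt.fun_const_smul (HasFDerivAt.congr_of_eventuallyEq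
      ((sm.fderiv_right (m := 1) (by norm_cast)).differentiableAt one_ne_zero).hasFDerivAt ?_) _
    exact (ev m).mono fun w hw => (h.hD hw hs).fderiv.symm
  · have e0 := Real.exp_pos (-(q * s))
    have g0 : ‖Γ z‖ ≤ C := by simpa using (h.bd 0 le_rfl z (by simpa using h.le m)).2.2.1
    have C0 := (norm_nonneg (Γ z)).trans g0
    refine ContinuousLinearMap.opNorm_le_bound₂ _ (by positivity) fun w u => ?_
    have b := braid sm (h.fl.cn z (h.le m)) (h.cn m hs) (Real.exp_pos (2 * s)) ((ev m).mono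
      fun y hy u v => by rw [(h.hD hy hs).fderiv]; exact h.hom hy hs u v) w u
    rw [(h.hD m hs).fderiv] at b
    have e : (Real.exp (-s) • fderiv ℝ (fderiv ℝ fun w => Φ (s, w)) z -
        (ContinuousLinearMap.compL ℝ V V V (Al Φ z)).comp (Γ z)) w u = (As Φ s z - Al Φ z) (Γ z w u) -
        Real.exp s • Γ (Φ (s, z)) (As Φ s z w) (As Φ s z u) := by
      simp only [sub_apply, smul_apply, b, As, map_smul, smul_smul, ← mul_assoc, exp_mul_neg,
        ContinuousLinearMap.comp_apply, ContinuousLinearMap.compL_apply]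
      module
    rw [e]
    refine (norm_sub_le _ _).trans ?_
    have b1 := ((As Φ s z - Al Φ z).le_opNorm (Γ z w u)).trans (mul_le_mul ((h.cA m).2 s hs)
      (((Γ z).le_opNorm₂ w u).trans (mul_le_mul_of_nonneg_right (mul_le_mul_of_nonneg_right g0
        (norm_nonneg w)) (norm_nonneg u))) (norm_nonneg _) (by positivity))
    have a := fun v => (As Φ s z).le_of_opNorm_le (h.bA m hs) v
    have b2 : ‖Γ (Φ (s, z)) (As Φ s z w) (As Φ s z u)‖ ≤ ‖Γ (Φ (s, z))‖ * (2 * ‖w‖) * (2 * ‖u‖) :=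
      ((Γ _).le_opNorm₂ _ _).trans (by gcongr <;> exact a _)
    rw [norm_smul, Real.norm_of_nonneg (Real.exp_pos _).le]
    nlinarith [mul_le_mul_of_nonneg_left b2 (Real.exp_pos s).le,
      mul_le_mul_of_nonneg_right (h.bd s hs _ (h.far m hs)).2.2.1
        (mul_nonneg (norm_nonneg w) (norm_nonneg u))]

theorem smY : ContDiffAt ℝ ∞ (Yl Φ) z := by
  have o : IsOpen {z : V | 2 * R < ‖z‖} := isOpen_lt continuous_const continuous_norm
  have a := boot (A := Al Φ) (G := fun p => (ContinuousLinearMap.compL ℝ V V V p.2).comp (Γ p.1)) o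
    (fun z m => ((ContinuousLinearMap.compL ℝ V V V).contDiff.contDiffAt.comp _
      contDiffAt_snd).clm_comp (ContDiffAt.comp (g := Γ) _ (h.fl.cn z (h.le m)).sΓ contDiffAt_fst))
    fun z m => h.dAl m
  exact ((contDiffOn_infty_iff_fderiv_of_isOpen o).2 ⟨fun z m =>
    (h.dYl m).differentiableAt.differentiableWithinAt,
      a.congr fun z m => (h.dYl m).fderiv⟩).contDiffAt (o.mem_nhds hz)

theorem iso (u v : V) : B z u v = B0 (Al Φ z u) (Al Φ z v) := by
  have t : Tendsto (fun s => B (Φ (s, z))) atTop (𝓝 B0) := by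
    refine (tendsto_iff_norm_sub_tendsto_zero (E := V →L[ℝ] V →L[ℝ] ℝ)).2 (squeeze_zero'
      (g := fun s => C * Real.exp (-(q * s)))
      (.of_forall fun s => ContinuousLinearMap.opNorm_nonneg (B (Φ (s, z)) - B0))
      ((eventually_ge_atTop 0).mono fun s hs => (h.bd s hs _ (h.far hz hs)).2.2.2) ?_)
    simpa using (Real.tendsto_exp_neg_atTop_nhds_zero.comp
      (tendsto_id.const_mul_atTop h.q0)).const_mul C
  have c : Continuous fun p : (V →L[ℝ] V →L[ℝ] ℝ) × (V →L[ℝ] V) => p.1 (p.2 u) (p.2 v) := by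
    fun_prop
  refine tendsto_nhds_unique (tendsto_const_nhds.congr' ((eventually_ge_atTop 0).mono
    fun s hs => ?_)) ((c.tendsto _).comp (t.prodMk_nhds (h.cA hz).1))
  simp only [Function.comp, As, smul_apply, map_smul, smul_eq_mul, h.hom hz hs, ← mul_assoc,
    ← Real.exp_add]
  rw [show -s + (-s + 2 * s) = 0 by ring, Real.exp_zero, one_mul]

theorem nY : ‖Yl Φ z - z‖ ≤ ‖z‖ / 8 := by
  have := (h.cY hz).2 0 le_rfl
  rw [h.Y0 hz, norm_sub_rev, mul_zero, neg_zero, Real.exp_zero] at this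
  linarith [norm_nonneg z]

omit hz in
theorem apx (hz : 4 * R < ‖z‖) : ApproximatesLinearOn (Yl Φ)
    (ContinuousLinearEquiv.refl ℝ V : V →L[ℝ] V) (closedBall z (‖z‖ / 2)) (1 / 8) := by
  have k : ∀ w ∈ closedBall z (‖z‖ / 2), 2 * R < ‖w‖ := fun w hw => by
    linarith [mem_closedBall_iff_norm'.1 hw, norm_sub_norm_le z w]
  intro x hx y hy
  have := (convex_closedBall z (‖z‖ / 2)).norm_image_sub_le_of_norm_hasFDerivWithin_le'
    (φ := ContinuousLinearMap.id ℝ V) (C := 1 / 8)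
    (fun w hw => (h.dYl (k w hw)).hasFDerivWithinAt) (fun w hw => by
      have := (h.cA (k w hw)).2 0 le_rfl
      rwa [h.A0 (k w hw), norm_sub_rev, mul_zero, neg_zero, Real.exp_zero, mul_one] at this) hy hx
  simpa using this

omit hz in
theorem inj : InjOn (Yl Φ) {z | 4 * R < ‖z‖} := by
  have k : ∀ a b : V, 4 * R < ‖a‖ → 4 * R < ‖b‖ → ‖b‖ ≤ ‖a‖ → Yl Φ a = Yl Φ b → a = b :=
    fun a b ha hb l e => by
      have r := h.fl.R1
      have h1 := h.nY (z := a) (by linarith)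
      have h2 := h.nY (z := b) (by linarith)
      have h3 : ‖b - a‖ ≤ ‖a‖ / 2 := by
        rw [e] at h1
        linarith [norm_sub_le_norm_sub_add_norm_sub b (Yl Φ b) a, norm_sub_rev b (Yl Φ b)]
      have := h.apx ha a (mem_closedBall_self (by positivity)) b (mem_closedBall_iff_norm.2 h3)
      rw [e, sub_self, zero_sub, norm_neg] at this
      refine sub_eq_zero.1 (norm_le_zero_iff.1 ?_)
      push_cast at this
      linarith [show ‖a - b‖ ≤ 1 / 8 * ‖a - b‖ from this]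
  exact fun a ha b hb e => (le_total ‖b‖ ‖a‖).elim (fun l => k a b ha hb l e)
    fun l => (k b a hb ha l e.symm).symm

omit hz in
theorem srj (hz : 4 * R < ‖z‖) : ∃ w, ‖z‖ / 2 ≤ ‖w‖ ∧ Yl Φ w = z := by
  have := FiniteDimensional.complete ℝ V
  have r := h.fl.R1
  obtain ⟨w, h1, h2⟩ := (h.apx hz).surjOn_closedBall_of_nonlinearRightInverse
    ⟨id, 1, fun y => by simp, fun y => rfl⟩ (ε := ‖z‖ / 2) (b := z) (by positivity) subset_rfl
    (show z ∈ _ from mem_closedBall_iff_norm'.2 ((h.nY (by linarith)).trans (by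
      push_cast; linarith [norm_nonneg z])))
  exact ⟨w, by linarith [mem_closedBall_iff_norm'.1 h1, norm_sub_norm_le z w], h2⟩

end Fb

end Vale.Agent.P366DV
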