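import Vale.Agent.P366DV.Tr
import Vale.Agent.P366DV.Eu3

/-!
# P366DV: the flow of the cone vector field
-/

open Set Filter Topology Metric
open scoped ContDiff
open Vale.Agent.P366 Vale.Agent.P366.Stmt
open Vale.Agent.P366M

noncomputable section

namespace Vale.Agent.P366DV

variable {n : ℕ} {M : Type} [Mfe n M] {U : Set M} {h : Fld n M} {f : M → ℝ} {f0 q t T R : ℝ}
  {x : M} {e : Ch n M} {y z : E n}

theorem bm_of (B : E n →L[ℝ] E n →L[ℝ] ℝ) (u v : E n) :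
    bm (fun i j => B (EuclideanSpace.single i 1) (EuclideanSpace.single j 1)) u v = B u v := by
  rw [bm_apply]
  conv_rhs => rw [← (EuclideanSpace.basisFun (Fin n) ℝ).sum_repr u,
    ← (EuclideanSpace.basisFun (Fin n) ℝ).sum_repr v]
  simp only [map_sum, map_smul, sum_apply, smul_apply, EuclideanSpace.basisFun_apply,
    EuclideanSpace.basisFun_repr, smul_eq_mul, Finset.mul_sum]
  rw [Finset.sum_comm]
  exact Finset.sum_congr rfl fun i _ => Finset.sum_congr rfl fun j _ => by ring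

theorem px_ch (hx : R0 M ≤ ‖px x‖) : (px : M → E n) =ᶠ[𝓝 x] ch x :=
  ev_pt.2 ((loc_px hx id).mono fun w hw => hw.trans (right_inv (ch_mem x) w).symm)

theorem sp_yp {F : Type} [NormedAddCommGroup F] [NormedSpace ℝ F] {φ : F → E n} {w : F}
    (hφ : ContDiffAt ℝ ∞ φ w) (hz : R0 M ≤ ‖φ w‖) : SP (fun a => (yp (φ a) : M)) w :=
  (sp_symm (ch_mem _) hφ).congr (hφ.continuousAt.eventually (symm_ev hz).symm)

/-- the hypotheses -/
structure Hy (U : Set M) (h : Fld n M) (f : M → ℝ) (f0 q : ℝ) : Prop where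
  met : MOn h U
  out : Out U f f0
  f0 : 0 ≤ f0
  q0 : 0 < q
  lim : Lim h q
  eq : ∀ x ∈ U, CAt ∞ f x ∧ P366M.hess h f x = h x ∧ ip h f f x = 2 * f x

/-- the vector field and the flow in the coordinates of the end -/
def Xe (h : Fld n M) (f : M → ℝ) (z : E n) : E n := vx (gr h f) (yp z)
def Pe (U : Set M) (h : Fld n M) (f : M → ℝ) (a : ℝ × E n) : E n :=
  px (fl (gr h f) U (a.1, yp a.2))

namespace Hy

variable (H : Hy U h f f0 q)
include H

theorem df (hx : x ∈ U) : DAt f x := (H.eq x hx).1.differentiableAt (by simp)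

theorem pos (hx : x ∈ U) : 0 < f x := H.f0.trans_lt (H.out.gt x hx)

theorem cn (he : e ∈ At M) (hy : e.symm y ∈ U) :
    Cn (bf (rep e h)) (cn3 (rep e h)) (vec (gr h f) e) y := by
  obtain ⟨g, hg, k⟩ := H.met.lm hy
  have r := rep_congr he k
  refine (cn_met (hg.rep he) ((H.eq _ hy).1.lc le_rfl he) ?_).congr (bf_ev r) (cn3_ev r) ?_
  · rw [hess_rep hg he ((H.eq _ hy).1.of_le two_le_oo)]
    funext i j
    simp only [rep, ← hess_met k, (H.eq _ hy).2.1, k.eq_of_nhds]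
  · filter_upwards [(ev_iff he).1 (k.and (H.met.op.mem_nhds hy))] with w hw
    simp only [vec, gv, gr_rep he g (H.df hw.2), repV, gr_met hw.1]

theorem von : VOn (gr h f) U := ⟨H.met.op, fun _ he _ hy => (H.cn he hy).sX⟩

theorem bm_vx (hx : x ∈ U) : bm (h x) (vx (gr h f) x) (vx (gr h f) x) = 2 * f x := by
  obtain ⟨g, hg, k⟩ := H.met.lm hx
  rw [← (H.eq x hx).2.2, ip_eq_gr, bm_apply, Finset.sum_comm]
  refine Finset.sum_congr rfl fun i _ => ?_
  rw [← hg.g_up_mul x i fun l => P366M.pd l f x, Finset.sum_mul]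
  refine Finset.sum_congr rfl fun j _ => ?_
  simp only [vx, gr_met k.eq_of_nhds, k.eq_of_nhds, hg.sy x j i]
  rfl

theorem f_fl (k : (t, x) ∈ Dm (gr h f) U) : f (fl (gr h f) U (t, x)) = Real.exp (2 * t) * f x := by
  have := fl_exp (u := fun s => f (fl (gr h f) U (s, x))) (t := t) (a := 2) fun s hs => by
    have m := fl_mem H.von (dm_mono k hs)
    refine ((fl_crv H.von (dm_mono k hs)).deriv (H.df m)).congr_deriv ?_
    rw [P366M.fderiv_eq_sum (H.df m), ← (H.eq _ m).2.2, ip_eq_gr]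
    exact Finset.sum_congr rfl fun i _ => mul_comm _ _
  simpa only [fl_zero] using this

theorem cn_far (hz : R0 M < ‖z‖) (hy : yp z ∈ U) : Cn (bf (fe h)) (cn3 (fe h)) (Xe h f) z := by
  have r : fe h =ᶠ[𝓝 z] rep (ch (yp z)) h := (rep_ye (j := Mfe.o) hz h).symm
  have a : (ch (yp z : M)).symm z = yp z := (symm_ev (j := Mfe.o) hz.le).eq_of_nhds
  refine (H.cn (y := z) (ch_mem (yp z)) (by rwa [a])).congr (bf_ev r) (cn3_ev r) ?_
  filter_upwards [eventually_all.2 fun i => repV_ye (j := Mfe.o) hz (gr h f) i] with w hw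
  ext i
  exact (hw i).symm

theorem bd : ∃ (R C q' : ℝ) (h0 : Matrix (Fin n) (Fin n) ℝ), h0.PosDef ∧ R0 M < R ∧
    (∀ x : M, R ≤ ‖px x‖ → x ∈ U) ∧ 0 < q' ∧ q' ≤ 1 / 2 ∧
    Bd (bf (fe h)) (cn3 (fe h)) (Xe h f) (bm h0) R C q' := by
  obtain ⟨h0, a, b⟩ := H.lim
  obtain ⟨R1, c⟩ := H.out.far
  obtain ⟨C, C0, R2, d⟩ := decay H.q0 a b (min q (1 / 2)) (min_le_left _ _)
  have r := R0_ge M
  obtain ⟨R, k1, k2, k3⟩ : ∃ R, R0 M < R ∧ R1 < R ∧ R2 ≤ R :=
    ⟨max (R0 M + 1) (max (R1 + 1) R2), by simp, by simp, by simp⟩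
  have q0 : 0 < min q (1 / 2) := lt_min H.q0 one_half_pos
  obtain ⟨R', k4, k5⟩ := bd_of (R := R) (by linarith) (fun z hz => H.cn_far (by linarith)
    (c _ (by rw [px_yp (by linarith)]; linarith))) q0 (min_le_right _ _) C0
    fun z hz => d z (k3.trans hz)
  exact ⟨R', C, _, h0, a, by linarith, fun x hx => c x (by linarith), q0, min_le_right _ _, k5⟩

theorem prop (t : ℝ) : ∃ R, ∀ x ∈ U, f x ≤ t → ‖px x‖ ≤ R := by
  obtain ⟨R, C, q', h0, a, b, -, c, d, k⟩ := H.bd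
  obtain ⟨L, hL⟩ := exists_L a
  obtain ⟨K, K0, hK⟩ := (L.symm : E n →L[ℝ] E n).bound
  have l : Tendsto (fun s => C * Real.exp (-(q' * s))) atTop (𝓝 0) := by
    simpa using (Real.tendsto_exp_neg_atTop_nhds_zero.comp
      (tendsto_id.const_mul_atTop c)).const_mul C
  obtain ⟨s, s0, s1⟩ := ((eventually_ge_atTop 0).and (l.eventually (ge_mem_nhds
    (show 0 < 1 / (2 * K ^ 2) by positivity)))).exists
  refine ⟨max (Real.exp s * R) (16 * K ^ 2 * t + 1), fun x hx ht => not_lt.1 fun m => ?_⟩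
  obtain ⟨m1, m2⟩ := max_lt_iff.1 m
  have r := R0_ge M
  have m3 : R ≤ ‖px x‖ := by nlinarith [Real.one_le_exp s0]
  obtain ⟨k1, -, -, k2⟩ := k s s0 _ m1.le
  have e1 : bf (fe h) (px x) (Xe h f (px x)) (Xe h f (px x)) = 2 * f x := by
    simp only [bf, fe, Xe, yp_px (x := x) (by linarith), H.bm_vx hx]
  generalize Xe h f (px x) = v at k1 e1
  have e2 : ‖px x‖ / 2 ≤ ‖v‖ := by
    have : Real.exp (-(q' * s)) ≤ 1 := Real.exp_le_one_iff.2 (by nlinarith)
    have : q' / 16 * Real.exp (-(q' * s)) ≤ 1 / 2 := by nlinarith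
    nlinarith [norm_sub_norm_le (px x) v, norm_sub_rev (px x) v]
  have e3 : ‖v‖ ^ 2 ≤ K ^ 2 * bm h0 v v := by
    have : ‖v‖ ≤ K * ‖L v‖ := by simpa using hK (L v)
    rw [hL, ← Finset.sum_congr rfl fun k _ => sq (L v k), ← EuclideanSpace.real_norm_sq_eq,
      ← mul_pow]
    gcongr
  have e4 := (bf (fe h) (px x) - bm h0).le_opNorm₂ v v
  rw [sub_apply, sub_apply, e1] at e4
  have e5 : bm h0 v v - 2 * f x ≤ 1 / (2 * K ^ 2) * ‖v‖ * ‖v‖ :=
    (le_abs_self _).trans ((abs_sub_comm _ _).trans_le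
      (e4.trans (by gcongr; exact k2.trans s1)))
  have e6 : K ^ 2 * (bm h0 v v - 2 * f x) ≤ ‖v‖ ^ 2 / 2 :=
    (mul_le_mul_of_nonneg_left e5 (sq_nonneg K)).trans_eq (by field_simp)
  have e7 : K ^ 2 * f x ≤ K ^ 2 * t := by gcongr
  have e8 : (‖px x‖ / 2) ^ 2 ≤ ‖v‖ ^ 2 := by gcongr
  nlinarith

theorem dm (hx : x ∈ U) (hT : f0 < Real.exp (2 * T) * f x) : (T, x) ∈ Dm (gr h f) U := by
  have m : Monotone fun t => Real.exp (2 * t) * f x := fun a b l =>
    mul_le_mul_of_nonneg_right (by gcongr) (H.pos hx).le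
  obtain ⟨R, hR⟩ := H.prop (max (f x) (Real.exp (2 * T) * f x))
  refine dm_of H.von hx (H.out.cpt _ (lt_min (H.out.gt x hx) hT) R) (fun _ a => a.1) fun t a b => ?_
  have := m.mapsTo_uIcc a
  simp only [mul_zero, Real.exp_zero, one_mul, ← H.f_fl b] at this
  exact ⟨fl_mem H.von b, this.1, hR _ (fl_mem H.von b) this.2⟩

theorem dm0 (hx : x ∈ U) (hT : 0 ≤ T) : (T, x) ∈ Dm (gr h f) U := H.dm hx ((H.out.gt x hx).trans_le
  (le_mul_of_one_le_left (H.pos hx).le (Real.one_le_exp (by linarith))))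

theorem esc (hx : x ∈ U) (ρ : ℝ) : ∀ᶠ T in atTop, 0 ≤ T ∧ ρ < ‖px (fl (gr h f) U (T, x))‖ := by
  obtain ⟨b, hb⟩ := (H.out.cpt _ (H.out.gt x hx) ρ).bddAbove_image
    (f := f) fun p m => (H.df m.1).continuousAt.continuousWithinAt
  have l : Tendsto (fun t => Real.exp (2 * t) * f x) atTop atTop :=
    (Real.tendsto_exp_atTop.comp (tendsto_id.const_mul_atTop two_pos)).atTop_mul_const (H.pos hx)
  filter_upwards [eventually_ge_atTop 0, l.eventually_gt_atTop (max b (f x))] with T a c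
  rw [← H.f_fl (H.dm0 hx a), max_lt_iff] at c
  exact ⟨a, not_le.1 fun k => c.1.not_ge (hb ⟨_, ⟨fl_mem H.von (H.dm0 hx a), c.2.le, k⟩, rfl⟩)⟩

theorem fl_e (h1 : R0 M < R) (h2 : ∀ x : M, R ≤ ‖px x‖ → x ∈ U) :
    Fl (bf (fe h)) (cn3 (fe h)) (Xe h f) (Pe U h f) R := by
  have r := R0_ge M
  have m : ∀ z, R ≤ ‖z‖ → yp z ∈ U := fun z hz => h2 _ (by rwa [px_yp (by linarith)])
  refine ⟨by linarith, fun z hz => H.cn_far (h1.trans_le hz) (m z hz),
    fun z hz => by simp only [Pe, fl_zero, px_yp (M := M) (y := z) (by linarith)],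
    fun z hz s hs => ?_⟩
  obtain ⟨a, b⟩ := fl_sm H.von (H.dm0 (m z hz) hs)
  have c : SP (fun a : ℝ × E n => (yp a.2 : M)) (s, z) := sp_yp contDiffAt_snd (h1.le.trans hz)
  have d : ContDiffAt ℝ ∞ (Pe U h f) (s, z) :=
    (S2.comp (τ := fun a : ℝ × E n => a.1) b contDiffAt_fst c).cAt sm_px.contDiffAt
  refine ⟨d, fun k => ⟨d, ?_⟩⟩
  filter_upwards [(continuousAt_fst.prodMk c.ct).eventually a,
    d.continuousAt.norm.eventually (lt_mem_nhds (h1.trans_le k))] with w w1 w2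
  refine ((fl_crv H.von w1).deriv (sm_px.differentiable (by simp) _)).congr_deriv ?_
  rw [show fd px (fl (gr h f) U (w.1, yp w.2)) = _ from fd_px w2.le id, fderiv_id, Xe, Pe,
    yp_px (by rw [Pe] at w2; linarith)]
  rfl

end Hy

end Vale.Agent.P366DV
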