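import Vale.Agent.P366DV.Dev1

/-!
# P366DV: the developing map
-/

open Set Filter Topology Metric
open scoped ContDiff
open Vale.Agent.P366 Vale.Agent.P366.Stmt
open Vale.Agent.P366M
open Vale.Agent.P366D (pl pb)

noncomputable section

namespace Vale.Agent.P366DV

variable {n : ℕ} {M : Type} [Mfe n M] {U : Set M} {h : Fld n M} {f : M → ℝ} {f0 q t T R C q' : ℝ}
  {x : M} {z : E n} {Z : Fin n → M → ℝ} {h0 : Matrix (Fin n) (Fin n) ℝ}

theorem sp_fl (hZ : VOn Z U) (k : (t, x) ∈ Dm Z U) :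
    SP (fun w => fl Z U (t, (ch x).symm w)) (pt x) :=
  SP.comp (σ := fun w => (t, w)) (fl_sm hZ k).2 (contDiffAt_const.prodMk contDiffAt_id)

theorem ev_dm (hZ : VOn Z U) (k : (t, x) ∈ Dm Z U) : ∀ᶠ s in 𝓝 t, (s, x) ∈ Dm Z U :=
  (continuousAt_id.prodMk continuousAt_const).eventually (fl_sm hZ k).1

/-- the flow consists of homotheties -/
theorem Hy.hom (H : Hy U h f f0 q) (k : (T, x) ∈ Dm (gr h f) U) (i j : Fin n) :
    pl (fun w => fl (gr h f) U (T, (ch x).symm w)) h (pt x) i j = Real.exp (2 * T) * h x i j := by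
  have := fl_exp (u := fun s => pl (fun w => fl (gr h f) U (s, (ch x).symm w)) h (pt x) i j)
    (t := T) (a := 2) fun s hs => by
      have m := dm_mono k hs
      obtain ⟨a, b⟩ := fl_sm H.von m
      obtain ⟨e, he, m1⟩ : ∃ e ∈ At M, fl (gr h f) U (s, x) ∈ e.source := ⟨_, ch_mem _, mem_ch _⟩
      obtain ⟨ψ, hψ⟩ : ∃ ψ : ℝ × E n → E n, ψ = fun a => e (fl (gr h f) U (a.1, (ch x).symm a.2)) :=
        ⟨_, rfl⟩
      have sl : Sl (vec (gr h f) e) ψ s (pt x) := by
        rw [hψ]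
        refine ⟨SP.cAt b (cAt_chart he (by rwa [symm_pt])), ?_⟩
        filter_upwards [(tendsto_prod_pt s x).eventually
          (a.and (b.ct.eventually (e.open_source.mem_nhds m1)))] with w hw
        exact (fl_crv H.von hw.1).lc he hw.2
      have c := H.cn (y := ψ (s, pt x)) he (by
        rw [hψ]; simp only [symm_pt, e.left_inv m1]; exact fl_mem H.von m)
      have ev : ∀ᶠ r in 𝓝 s, pl (fun w => fl (gr h f) U (r, (ch x).symm w)) h (pt x) i j =
          bf (rep e h) (ψ (r, pt x)) (Dw ψ (r, pt x) (EuclideanSpace.single i 1))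
            (Dw ψ (r, pt x) (EuclideanSpace.single j 1)) := by
        filter_upwards [ev_dm H.von m, (fl_crv H.von m).ct.eventually (e.open_source.mem_nhds m1),
          (continuousAt_id.prodMk continuousAt_const).eventually (ev_diff sl.sm)] with r a1 a2 a3
        have d := has_Dw (t := r) a3
        rw [← d.fderiv, ← pb_bf d.differentiableAt]
        rw [hψ] at d ⊢
        rw [P366D.pl_eq he (by rwa [symm_pt]) (sp_fl H.von a1).ct d.differentiableAt]
      rw [ev.self_of_nhds]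
      exact (sl.hom c _ _).congr_of_eventuallyEq ev
  simpa only [fl_zero, ← P366D.rep_eq_pl, rep_pt] using this

/-- the limit of the rescaled flow -/
def Ym (U : Set M) (h : Fld n M) (f : M → ℝ) (x : M) : E n :=
  limUnder atTop fun s => Real.exp (-s) • px (fl (gr h f) U (s, x))

/-- the hypotheses and the bounds -/
structure Hb (U : Set M) (h : Fld n M) (f : M → ℝ) (f0 q R C q' : ℝ)
    (h0 : Matrix (Fin n) (Fin n) ℝ) : Prop extends Hy U h f f0 q where
  R0 : R0 M < R
  far : ∀ x : M, R ≤ ‖px x‖ → x ∈ U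
  fb : Fb (bf (fe h)) (cn3 (fe h)) (Xe h f) (bm h0) (Pe U h f) R C q'

namespace Hb

variable (H : Hb U h f f0 q R C q' h0)
include H

theorem yp (k : 2 * R < ‖px x‖) : yp (px x) = x :=
  yp_px (by linarith [H.R0, R0_ge M])

theorem Y_eq (hx : x ∈ U) (hT : 0 ≤ T) (k : 2 * R < ‖px (fl (gr h f) U (T, x))‖) :
    Ym U h f x = Real.exp (-T) • Yl (Pe U h f) (px (fl (gr h f) U (T, x))) := by
  refine Tendsto.limUnder_eq ((((H.fb.cY k).1.const_smul (Real.exp (-T))).comp
    (tendsto_atTop_add_const_right _ (-T) tendsto_id)).congr' ?_)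
  filter_upwards [eventually_ge_atTop T] with s hs
  have := (fl_add H.von (H.dm0 hx (hT.trans hs)) (mem_uIcc_of_le hT hs) (t := s + -T)
    (by simp)).2
  simp only [Function.comp, id, Ys, Pe, H.yp k, this, smul_smul, ← Real.exp_add]
  ring_nf

theorem Y_fl0 (hx : x ∈ U) (ht : 0 ≤ t) :
    Ym U h f (fl (gr h f) U (t, x)) = Real.exp t • Ym U h f x := by
  have m := fl_mem H.von (H.dm0 hx ht)
  obtain ⟨T, a, b⟩ := (H.esc m (2 * R)).exists
  have c := (fl_add H.von (H.dm0 hx (add_nonneg a ht)) (mem_uIcc_of_le ht (by linarith))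
    right_mem_uIcc).2
  rw [H.Y_eq m a b, H.Y_eq hx (add_nonneg a ht) (c ▸ b), c, smul_smul, ← Real.exp_add]
  ring_nf

theorem Y_fl (hx : x ∈ U) (k : (t, x) ∈ Dm (gr h f) U) :
    Ym U h f (fl (gr h f) U (t, x)) = Real.exp t • Ym U h f x := by
  rcases le_total 0 t with ht | ht
  · exact H.Y_fl0 hx ht
  have := H.Y_fl0 (fl_mem H.von k) (neg_nonneg.2 ht)
  rw [(fl_neg H.von k).2] at this
  rw [this, smul_smul, exp_mul_neg, one_smul]

theorem Y_sm (hx : x ∈ U) : CAt ∞ (Ym U h f) x ∧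
    ∀ u v, bm (h x) u v = bm h0 (fd (Ym U h f) x u) (fd (Ym U h f) x v) := by
  obtain ⟨T, a, b⟩ := (H.esc hx (2 * R)).exists
  have s := sp_fl H.von (H.dm0 hx a)
  obtain ⟨ψ, hψ⟩ : ∃ ψ : E n → E n, ψ = fun w => px (fl (gr h f) U (T, (ch x).symm w)) := ⟨_, rfl⟩
  have s1 : ContDiffAt ℝ ∞ ψ (pt x) := hψ ▸ s.cAt sm_px.contDiffAt
  have b' : 2 * R < ‖ψ (pt x)‖ := by simpa only [hψ, symm_pt] using b
  have ev : loc (ch x) (Ym U h f) =ᶠ[𝓝 (pt x)] fun w => Real.exp (-T) • Yl (Pe U h f) (ψ w) := by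
    filter_upwards [(tendsto_pt x).eventually (H.met.op.mem_nhds hx),
      s1.continuousAt.norm.eventually (lt_mem_nhds b')] with w w1 w2
    rw [hψ] at w2 ⊢
    exact H.Y_eq w1 a w2
  have d := s1.differentiableAt (by simp)
  have d1 : fd (Ym U h f) x = Real.exp (-T) • (Al (Pe U h f) (ψ (pt x))).comp (fderiv ℝ ψ (pt x)) :=
    ((((H.fb.dYl b').comp _ d.hasFDerivAt).fun_const_smul _).congr_of_eventuallyEq ev).fderiv
  refine ⟨(((H.fb.smY b').comp _ s1).const_smul _).congr_of_eventuallyEq ev, fun u v => ?_⟩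
  refine Eq.trans ?_ (bm_of ((bm h0).bilinearComp (fd (Ym U h f) x) (fd (Ym U h f) x)) u v)
  refine congrArg (fun A => bm A u v) (funext fun i => funext fun j => ?_)
  have e1 : pl (fun w => fl (gr h f) U (T, (ch x).symm w)) h (pt x) = pb ψ (fe h) (pt x) := by
    have : ψ =ᶠ[𝓝 (pt x)] fun w => ch (fl (gr h f) U (T, (ch x).symm (pt x)))
        (fl (gr h f) U (T, (ch x).symm w)) := hψ ▸ s.ct.eventually (px_ch
      (x := fl (gr h f) U (T, (ch x).symm (pt x))) (by rw [symm_pt]; linarith [H.R0, R0_ge M]))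
    funext i j
    simp only [pl, pb, jac_congr this]
    simp only [hψ, fe, symm_pt, H.yp b]
  have e2 := H.hom (H.dm0 hx a) i j
  rw [e1, pb_bf d, H.fb.iso b'] at e2
  simp only [d1, ContinuousLinearMap.bilinearComp_apply, smul_apply, map_smul, smul_eq_mul,
    ContinuousLinearMap.comp_apply, e2, two_mul, Real.exp_add]
  linear_combination (-(Real.exp T * Real.exp (-T)) - 1) * h x i j * exp_mul_neg T

theorem Y_nm (hx : x ∈ U) : bm h0 (Ym U h f x) (Ym U h f x) = 2 * f x := by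
  obtain ⟨a, b⟩ := H.Y_sm hx
  have m := cv_zero H.von hx
  have d := (fl_crv H.von m).deriv (u := Ym U h f) (by
    rw [fl_zero]; exact a.differentiableAt (by simp))
  have d' := ((Real.hasDerivAt_exp 0).smul_const (Ym U h f x)).congr_of_eventuallyEq
    ((ev_dm H.von m).mono fun s hs => H.Y_fl hx hs)
  have := d.unique d'
  rw [fl_zero, Real.exp_zero, one_smul] at this
  rw [← H.bm_vx hx, b, this]

theorem Y_inj : InjOn (Ym U h f) U := fun a ha b hb e => by
  obtain ⟨T, ⟨t0, a1⟩, -, b1⟩ := ((H.esc ha (4 * R)).and (H.esc hb (4 * R))).exists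
  have r := H.fb.fl.R1
  have a2 : 2 * R < ‖px (fl (gr h f) U (T, a))‖ := by linarith
  have b2 : 2 * R < ‖px (fl (gr h f) U (T, b))‖ := by linarith
  rw [H.Y_eq ha t0 a2, H.Y_eq hb t0 b2] at e
  have := H.fb.inj a1 b1 (smul_right_injective _ (Real.exp_pos _).ne' e)
  rw [← (fl_neg H.von (H.dm0 ha t0)).2, ← H.yp a2, this, H.yp b2, (fl_neg H.von (H.dm0 hb t0)).2]

theorem Y_srj (hz : 2 * f0 < bm h0 z z) : ∃ x ∈ U, Ym U h f x = z := by
  have z0 : 0 < ‖z‖ := norm_pos_iff.2 fun k => by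
    rw [k, map_zero] at hz; linarith [H.f0]
  obtain ⟨T, a⟩ := ((Real.tendsto_exp_atTop.atTop_mul_const z0).eventually_gt_atTop (4 * R)).exists
  rw [← Real.norm_of_nonneg (Real.exp_pos T).le, ← norm_smul] at a
  obtain ⟨w, b, c⟩ := H.fb.srj a
  have r := H.fb.fl.R1
  have m : P366M.yp w ∈ U := H.far _ (by rw [px_yp (by linarith [H.R0])]; linarith)
  have c' : Ym U h f (P366M.yp w) = Real.exp T • z := c
  have d := H.Y_nm m
  simp only [c', map_smul, smul_apply, smul_eq_mul] at d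
  have k := H.dm (T := -T) m (by
    have : Real.exp (2 * -T) * (2 * f (P366M.yp w)) = bm h0 z z := by
      rw [← d, two_mul, Real.exp_add]
      linear_combination (Real.exp T * Real.exp (-T) + 1) * bm h0 z z * exp_mul_neg T
    linarith)
  exact ⟨_, fl_mem H.von k, by rw [H.Y_fl m k, c', smul_smul, mul_comm, exp_mul_neg, one_smul]⟩

end Hb

/-- **the developing map** -/
theorem dev : DEV := fun n M _ U h f f0 q _ a1 a2 a3 a4 a5 a6 => by
  have H0 : Hy U h f f0 q := ⟨a1, a2, a3, a4, a5, a6⟩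
  obtain ⟨R, C, q', h0, a, b, c, d, -, k⟩ := H0.bd
  have H : Hb U h f f0 q R C q' h0 := ⟨H0, b, c, H0.fl_e b c, d, k⟩
  obtain ⟨L, hL⟩ := exists_L a
  have nm : ∀ z, ‖L z‖ ^ 2 = bm h0 z z := fun z => by
    rw [hL, EuclideanSpace.real_norm_sq_eq]; simp only [sq]
  refine ⟨fun x => L (Ym U h f x), fun x hx => ?_, fun x hx => ?_,
    fun x hx y hy e => H.Y_inj hx hy (L.injective e), fun z hz => ?_⟩
  · obtain ⟨s, t⟩ := H.Y_sm hx
    have s' : CAt ∞ (fun x => L (Ym U h f x)) x := L.contDiff.contDiffAt.compM s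
    refine ⟨s', by rw [nm, H.Y_nm hx], funext fun i => funext fun j => ?_⟩
    have e : ∀ i k, P366M.pd i (fun z => L (Ym U h f z) k) x =
        L (fd (Ym U h f) x (EuclideanSpace.single i 1)) k := fun i k => by
      refine (jac_eq (τ := loc (ch x) fun x => L (Ym U h f x)) (s'.differentiableAt (by simp))
        k i).trans ?_
      rw [show fderiv ℝ (loc (ch x) fun x => L (Ym U h f x)) (pt x) = _ from
        fd_comp L.differentiableAt (s.differentiableAt (by simp)), L.fderiv]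
      rfl
    simp only [em, e, ← hL, ← t, bm_single]
  · rw [mem_ofPred_eq, nm, H.Y_nm hx]; linarith [a2.gt x hx]
  · obtain ⟨x, m, e⟩ := H.Y_srj (z := L.symm z) (by rw [← nm, L.apply_symm_apply]; exact hz)
    exact ⟨x, m, by simp only [e, L.apply_symm_apply]⟩

end Vale.Agent.P366DV
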