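import Mathlib

/-!
# P366DV: the Euler field of a cone in coordinates
-/

open Set Filter Topology
open scoped ContDiff

noncomputable section

namespace Vale.Agent.P366DV

variable {V W : Type} [NormedAddCommGroup V] [NormedSpace ℝ V] [NormedAddCommGroup W]
  [NormedSpace ℝ W]

/-- a metric `B`, its connection `Γ`, and a vector field `X` with `∇ X = Id` -/
structure Cn (B : V → V →L[ℝ] V →L[ℝ] ℝ) (Γ : V → V →L[ℝ] V →L[ℝ] V) (X : V → V) (z : V) :
    Prop where
  sB : ContDiffAt ℝ ∞ B z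
  sΓ : ContDiffAt ℝ ∞ Γ z
  sX : ContDiffAt ℝ ∞ X z
  sy : ∀ u v, B z u v = B z v u
  pos : ∀ u ≠ 0, 0 < B z u u
  syΓ : ∀ u v, Γ z u v = Γ z v u
  dB : ∀ w u v, fderiv ℝ B z w u v = B z (Γ z w u) v + B z u (Γ z w v)
  dX : ∀ v, fderiv ℝ X z v = v - Γ z v (X z)

variable {B : V → V →L[ℝ] V →L[ℝ] ℝ} {Γ : V → V →L[ℝ] V →L[ℝ] V} {X : V → V} {z : V}
  {ψ : ℝ × W → V} {t : ℝ} {w : W}

/-- the derivative in the second variable -/
def Dw (ψ : ℝ × W → V) (q : ℝ × W) : W →L[ℝ] V :=
  (fderiv ℝ ψ q).comp (ContinuousLinearMap.inr ℝ ℝ W)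

theorem has_Dw (h : DifferentiableAt ℝ ψ (t, w)) :
    HasFDerivAt (fun w => ψ (t, w)) (Dw ψ (t, w)) w :=
  h.hasFDerivAt.comp w (hasFDerivAt_prodMk_right t w)

theorem ev_diff (h : ContDiffAt ℝ ∞ ψ (t, w)) : ∀ᶠ q in 𝓝 (t, w), DifferentiableAt ℝ ψ q :=
  ((h.of_le (m := 1) (by simp)).eventually (by simp)).mono fun _ a => a.differentiableAt one_ne_zero

/-- `ψ` is smooth at `(t, w)` and solves the equation near this point -/
structure Sl (X : V → V) (ψ : ℝ × W → V) (t : ℝ) (w : W) : Prop where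
  sm : ContDiffAt ℝ ∞ ψ (t, w)
  ode : ∀ᶠ q in 𝓝 (t, w), HasDerivAt (fun s => ψ (s, q.2)) (X (ψ q)) q.1

/-- the variational equation -/
theorem Sl.var (h : Sl X ψ t w) (hX : DifferentiableAt ℝ X (ψ (t, w))) :
    HasDerivAt (fun s => Dw ψ (s, w)) ((fderiv ℝ X (ψ (t, w))).comp (Dw ψ (t, w))) t := by
  have d2 : HasFDerivAt (fderiv ℝ ψ) (fderiv ℝ (fderiv ℝ ψ) (t, w)) (t, w) :=
    ((h.sm.fderiv_right (m := 1) (by norm_cast)).differentiableAt one_ne_zero).hasFDerivAt
  have l : ∀ (s : ℝ) (w : W), HasDerivAt (fun s : ℝ => (s, w)) ((1, 0) : ℝ × W) s := fun s w =>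
    (hasDerivAt_id s).prodMk (hasDerivAt_const s w)
  have h0 : HasDerivAt (fun s => fderiv ℝ ψ (s, w)) (fderiv ℝ (fderiv ℝ ψ) (t, w) (1, 0)) t :=
    HasFDerivAt.comp_hasDerivAt (f := fun s : ℝ => (s, w)) t d2 (l t w)
  have h1 := h0.clm_comp (hasDerivAt_const t (ContinuousLinearMap.inr ℝ ℝ W))
  refine HasDerivAt.congr_deriv h1 (ContinuousLinearMap.ext fun v => ?_)
  have e : (fun q => fderiv ℝ ψ q (1, 0)) =ᶠ[𝓝 (t, w)] fun q => X (ψ q) := by
    filter_upwards [ev_diff h.sm, h.ode] with q a b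
    exact (HasFDerivAt.comp_hasDerivAt (f := fun s : ℝ => (s, q.2)) q.1 a.hasFDerivAt
      (l q.1 q.2)).unique b
  have h2 := ((d2.clm_apply (hasFDerivAt_const ((1, 0) : ℝ × W) (t, w))).congr_of_eventuallyEq
    e.symm).unique (HasFDerivAt.comp (f := ψ) (t, w) hX.hasFDerivAt
      (ev_diff h.sm).self_of_nhds.hasFDerivAt)
  have h3 := congrArg (fun L => L (0, v)) h2
  have h4 := h.sm.isSymmSndFDerivAt (by simp; norm_cast) (1, 0) (0, v)
  simp only [Dw, ContinuousLinearMap.comp_apply, ContinuousLinearMap.flip_apply, zero_add,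
    ContinuousLinearMap.inr_apply, ContinuousLinearMap.comp_zero, add_zero] at h3 ⊢
  rw [h4, h3]

/-- the flow consists of homotheties -/
theorem Sl.hom (h : Sl X ψ t w) (c : Cn B Γ X (ψ (t, w))) (u v : W) :
    HasDerivAt (fun s => B (ψ (s, w)) (Dw ψ (s, w) u) (Dw ψ (s, w) v))
      (2 * B (ψ (t, w)) (Dw ψ (t, w) u) (Dw ψ (t, w) v)) t := by
  have h1 := h.var (c.sX.differentiableAt (by simp))
  have h0 : HasDerivAt (fun s => B (ψ (s, w))) (fderiv ℝ B (ψ (t, w)) (X (ψ (t, w)))) t :=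
    HasFDerivAt.comp_hasDerivAt (f := fun s : ℝ => ψ (s, w)) t
      (c.sB.differentiableAt (by simp)).hasFDerivAt h.ode.self_of_nhds
  have h2 := (h0.clm_apply (h1.clm_apply (hasDerivAt_const t u))).clm_apply
      (h1.clm_apply (hasDerivAt_const t v))
  refine HasDerivAt.congr_deriv h2 ?_
  simp only [add_apply, ContinuousLinearMap.comp_apply, map_zero, add_zero,
    c.dB, c.dX, map_sub, sub_apply, c.syΓ (X _)]
  ring

/-- the second derivative of a homothety -/
theorem braid [FiniteDimensional ℝ V] {φ : V → V} {c : ℝ} (hφ : ContDiffAt ℝ ∞ φ z)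
    (h : Cn B Γ X z) (h' : Cn B Γ X (φ z)) (hc : 0 < c)
    (e : ∀ᶠ w in 𝓝 z, ∀ u v, B (φ w) (fderiv ℝ φ w u) (fderiv ℝ φ w v) = c * B w u v) (w u : V) :
    fderiv ℝ (fderiv ℝ φ) z w u =
      fderiv ℝ φ z (Γ z w u) - Γ (φ z) (fderiv ℝ φ z w) (fderiv ℝ φ z u) := by
  have d2 : HasFDerivAt (fderiv ℝ φ) (fderiv ℝ (fderiv ℝ φ) z) z :=
    ((hφ.fderiv_right (m := 1) (by norm_cast)).differentiableAt one_ne_zero).hasFDerivAt
  have d1 := (hφ.differentiableAt (by simp)).hasFDerivAt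
  have e0 := e.self_of_nhds
  set A := fderiv ℝ φ z
  set T := fun w u => fderiv ℝ (fderiv ℝ φ) z w u - (A (Γ z w u) - Γ (φ z) (A w) (A u)) with hT
  have t1 : ∀ w u, T w u = T u w := fun w u => by
    simp only [hT, hφ.isSymmSndFDerivAt (by simp; norm_cast) w u, h.syΓ w u, h'.syΓ (A w)]
  have t2 : ∀ w u v, B (φ z) (T w u) (A v) = -B (φ z) (T w v) (A u) := fun w u v => by
    have h1 := (((h'.sB.differentiableAt (by simp)).hasFDerivAt.comp z d1).clm_apply
      (d2.clm_apply (hasFDerivAt_const u z))).clm_apply (d2.clm_apply (hasFDerivAt_const v z))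
    have h2 := (((h.sB.differentiableAt (by simp)).hasFDerivAt.clm_apply
      (hasFDerivAt_const u z)).clm_apply (hasFDerivAt_const v z)).const_mul c
    have h3 := congrArg (fun L => L w) ((h1.congr_of_eventuallyEq
      (e.mono fun y hy => (hy u v).symm)).unique h2)
    simp only [add_apply, ContinuousLinearMap.comp_apply, map_zero,
      ContinuousLinearMap.flip_apply, zero_apply, zero_add, h.dB, h'.dB,
      smul_apply, smul_eq_mul, Function.comp, mul_add, ← e0] at h3
    simp only [hT, map_sub, sub_apply, h'.sy _ (A u)]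
    linarith
  have hi : Function.Injective A := (injective_iff_map_eq_zero A).2 fun a ha => by_contra fun k => by
    have := e0 a a
    rw [ha, map_zero] at this
    exact (mul_pos hc (h.pos a k)).ne this
  obtain ⟨v, hv⟩ := LinearMap.injective_iff_surjective (f := (A : V →ₗ[ℝ] V)).1 hi (T w u)
  refine sub_eq_zero.1 (by_contra fun k => (h'.pos (T w u) k).ne' ?_)
  have : B (φ z) (T w u) (A v) = 0 := by
    linarith [t2 w u v, t2 v w u, t2 u v w, congrArg (fun a => B (φ z) a (A u)) (t1 w v),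
      congrArg (fun a => B (φ z) a (A w)) (t1 v u), congrArg (fun a => B (φ z) a (A v)) (t1 u w)]
  rwa [show A v = T w u from hv] at this

/-! ### three lemmas on curves -/

variable {u u' : ℝ → W} {a b q K : ℝ}

theorem dexp (q s : ℝ) : HasDerivAt (fun s => Real.exp (-(q * s))) (-q * Real.exp (-(q * s))) s :=
  ((hasDerivAt_id' s).const_mul q).neg.exp.congr_deriv (by simp only [Pi.neg_apply]; ring)

theorem fence (hK : 0 ≤ K) (hu : ∀ s ≥ 0, DifferentiableAt ℝ u s) (h : ∀ s ≥ 0, ‖u s - u 0‖ ≤ K →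
    ‖deriv u s‖ < K * q * Real.exp (-(q * s))) : ∀ s ≥ 0, ‖u s - u 0‖ ≤ K := fun s hs => by
  have k : ∀ s, K * (1 - Real.exp (-(q * s))) ≤ K := fun s => by
    nlinarith [Real.exp_pos (-(q * s))]
  refine (image_norm_le_of_norm_deriv_right_lt_deriv_boundary (f := fun s => u s - u 0) (a := 0)
    (b := s) (f' := deriv u) (B := fun s => K * (1 - Real.exp (-(q * s))))
    (B' := fun s => K * q * Real.exp (-(q * s)))
    (fun r m => ((hu r m.1).continuousAt.sub continuousAt_const).continuousWithinAt)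
    (fun r m => ((hu r m.1).hasDerivAt.sub_const _).hasDerivWithinAt) (by simp)
    (fun r => (((dexp q r).const_sub 1).const_mul K).congr_deriv (by ring))
    (fun r m e => h r m.1 (e.trans_le (k r))) ⟨hs, le_rfl⟩).trans (k s)

theorem conv [CompleteSpace W] (hq : 0 < q) (hu : ∀ s ≥ 0, HasDerivAt u (u' s) s)
    (h : ∀ s ≥ 0, ‖u' s‖ ≤ K * q * Real.exp (-(q * s))) :
    Tendsto u atTop (𝓝 (limUnder atTop u)) ∧
      ∀ s ≥ 0, ‖u s - limUnder atTop u‖ ≤ K * Real.exp (-(q * s)) := by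
  have K0 : 0 ≤ K := by
    have := (norm_nonneg _).trans (h 0 le_rfl)
    simp only [mul_zero, neg_zero, Real.exp_zero, mul_one] at this
    exact nonneg_of_mul_nonneg_left this hq
  have k : ∀ s ≥ 0, ∀ t ≥ s, ‖u t - u s‖ ≤ K * Real.exp (-(q * s)) := fun s hs t ht => by
    refine (image_norm_le_of_norm_deriv_right_le_deriv_boundary (f := fun r => u r - u s) (a := s)
      (b := t) (f' := u') (B := fun r => K * (Real.exp (-(q * s)) - Real.exp (-(q * r))))
      (B' := fun s => K * q * Real.exp (-(q * s)))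
      (fun r m => ((hu r (hs.trans m.1)).continuousAt.sub continuousAt_const).continuousWithinAt)
      (fun r m => ((hu r (hs.trans m.1)).sub_const _).hasDerivWithinAt) (by simp)
      (fun r => (((dexp q r).const_sub _).const_mul K).congr_deriv (by ring))
      (fun r m => h r (hs.trans m.1)) ⟨ht, le_rfl⟩).trans ?_
    nlinarith [Real.exp_pos (-(q * t))]
  have z : Tendsto (fun s => K * Real.exp (-(q * s))) atTop (𝓝 0) := by
    simpa using (Real.tendsto_exp_neg_atTop_nhds_zero.comp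
      (tendsto_id.const_mul_atTop hq)).const_mul K
  have c : CauchySeq u := Metric.cauchySeq_iff'.2 fun ε hε => by
    obtain ⟨N, h1, h2⟩ := ((z.eventually (gt_mem_nhds hε)).and (eventually_ge_atTop 0)).exists
    exact ⟨N, fun t ht => by rw [dist_eq_norm]; exact (k N h2 t ht).trans_lt h1⟩
  refine ⟨c.tendsto_limUnder, fun s hs => ?_⟩
  refine le_of_tendsto ((tendsto_const_nhds (x := u s)).sub c.tendsto_limUnder).norm ?_
  exact (eventually_ge_atTop s).mono fun t ht => by rw [norm_sub_rev]; exact k s hs t ht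

/-- uniform limits of derivatives -/
theorem lim_fd {F : ℝ → V → W} {F' : ℝ → V → V →L[ℝ] W} {G : V → W} {G' : V → V →L[ℝ] W}
    {O : Set V} (hO : IsOpen O) (hq : 0 < q) (h1 : ∀ s ≥ 0, ∀ z ∈ O, HasFDerivAt (F s) (F' s z) z)
    (h2 : ∀ z ∈ O, Tendsto (fun s => F s z) atTop (𝓝 (G z)))
    (h3 : ∀ s ≥ 0, ∀ z ∈ O, ‖F' s z - G' z‖ ≤ K * Real.exp (-(q * s))) (hz : z ∈ O) :
    HasFDerivAt G (G' z) z := by
  have t : Tendsto (fun s => K * Real.exp (-(q * s))) atTop (𝓝 0) := by
    simpa using (Real.tendsto_exp_neg_atTop_nhds_zero.comp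
      (tendsto_id.const_mul_atTop hq)).const_mul K
  refine hasFDerivAt_of_tendstoUniformlyOn (l := atTop) (f := fun k : ℕ => F k)
    (f' := fun k : ℕ => F' k) hO (Metric.tendstoUniformlyOn_iff.2 fun ε hε => ?_)
    (fun k => h1 k k.cast_nonneg) (fun z m => (h2 z m).comp tendsto_natCast_atTop_atTop) hz
  filter_upwards [(t.comp tendsto_natCast_atTop_atTop).eventually (gt_mem_nhds hε)] with k hk z m
  rw [dist_comm, dist_eq_norm]
  exact (h3 k k.cast_nonneg z m).trans_lt hk

/-- solutions of a smooth total differential equation are smooth -/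
theorem boot {A : V → W} {G : V × W → V →L[ℝ] W} {O : Set V} (hO : IsOpen O)
    (hG : ∀ z ∈ O, ContDiffAt ℝ ∞ G (z, A z)) (h : ∀ z ∈ O, HasFDerivAt A (G (z, A z)) z) :
    ContDiffOn ℝ ∞ A O := by
  have d : DifferentiableOn ℝ A O := fun z m => (h z m).differentiableAt.differentiableWithinAt
  refine contDiffOn_infty.2 fun k => ?_
  induction k with
  | zero => exact contDiffOn_zero.2 d.continuousOn
  | succ k ih =>
    refine (contDiffOn_succ_iff_fderiv_of_isOpen (n := k) hO).2 ⟨d, by simp, ContDiffOn.congr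
      (f := fun z => G (z, A z)) (fun z m => ?_) fun z m => (h z m).fderiv⟩
    exact (((hG z m).of_le (by exact_mod_cast le_top)).comp z
      (contDiffAt_id.prodMk (ih.contDiffAt (hO.mem_nhds m)))).contDiffWithinAt

end Vale.Agent.P366DV
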