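import Vale.Agent.P366DV.Crv

/-!
# P366DV: the maximal flow
-/

open Set Filter Topology Metric
open scoped ContDiff
open Vale.Agent.P366 Vale.Agent.P366.Stmt
open Vale.Agent.P366M

noncomputable section

namespace Vale.Agent.P366DV

variable {n : ℕ} {M : Type} [Mf0 n M] {U : Set M} {x p : M} {Z : Fin n → M → ℝ} {c : ℝ → M}
  {t s T : ℝ}

/-- the domain of the flow -/
def Dm (Z : Fin n → M → ℝ) (U : Set M) : Set (ℝ × M) := {q | ∃ c, Cv Z U q.2 q.1 c}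

open Classical in
/-- the flow -/
def fl (Z : Fin n → M → ℝ) (U : Set M) (q : ℝ × M) : M :=
  if h : q ∈ Dm Z U then h.choose q.1 else q.2

theorem Cv.fl_eq (hZ : VOn Z U) (h : Cv Z U x T c) (ht : t ∈ uIcc 0 T) : fl Z U (t, x) = c t := by
  have m : (t, x) ∈ Dm Z U := ⟨c, h.mono ht⟩
  rw [fl, dif_pos m]
  exact (Cv.uniq hZ m.choose_spec (h.mono ht) t right_mem_uIcc).eq_of_nhds

theorem cv_zero (hZ : VOn Z U) (hx : x ∈ U) : (0, x) ∈ Dm Z U := by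
  obtain ⟨ε, hε, φ, h⟩ := loc_flow hZ hx
  exact ⟨fun s => φ (s, x), h.self_of_nhds.1, fun t ht =>
    (h.self_of_nhds.2 t (by rw [uIcc_self, mem_singleton_iff] at ht; simpa [ht])).1⟩

theorem fl_zero (x : M) : fl Z U (0, x) = x := by
  unfold fl
  split_ifs with h
  exacts [h.choose_spec.1, rfl]

theorem fl_mem (hZ : VOn Z U) (h : (t, x) ∈ Dm Z U) : fl Z U (t, x) ∈ U :=
  let ⟨_, k⟩ := h
  k.fl_eq hZ right_mem_uIcc ▸ (k.2 t right_mem_uIcc).1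

theorem ind {P : ℝ → Prop} (h0 : P 0) (h : ∀ t ∈ uIcc 0 T, ∃ ε > 0, ∀ a ∈ uIcc 0 T,
    ∀ b ∈ uIcc 0 T, |a - t| < ε → |b - t| < ε → P a → P b) : P T := by
  refine isPreconnected_uIcc.induction₂' (fun a b => P a → P b) (fun t ht => ?_)
    (fun _ _ _ _ _ _ a b c => b (a c)) left_mem_uIcc right_mem_uIcc h0
  obtain ⟨ε, hε, k⟩ := h t ht
  filter_upwards [self_mem_nhdsWithin, mem_nhdsWithin_of_mem_nhds (ball_mem_nhds t hε)] with s a b
  exact ⟨k t ht s a (by simpa) b, k s a t ht b (by simpa)⟩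

/-- **existence**: solutions which stay in a compact set are continued -/
theorem dm_of (hZ : VOn Z U) (hx : x ∈ U) {K : Set M} (hK : IsCompact K) (hU : K ⊆ U)
    (h : ∀ t ∈ uIcc 0 T, (t, x) ∈ Dm Z U → fl Z U (t, x) ∈ K) : (T, x) ∈ Dm Z U := by
  obtain ⟨ε, hε, k⟩ : ∃ ε > 0, ∀ p ∈ K, ∃ d : ℝ → M, d 0 = p ∧ ∀ r, |r| < ε → Ce Z U d r := by
    refine hK.induction_on (p := fun S => ∃ ε > 0, ∀ p ∈ S, ∃ d : ℝ → M, d 0 = p ∧
      ∀ r, |r| < ε → Ce Z U d r) ⟨1, one_pos, by simp⟩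
      (fun _ _ a ⟨ε, b, c⟩ => ⟨ε, b, fun p m => c p (a m)⟩) ?_ fun p hp => ?_
    · rintro S S' ⟨ε, a, b⟩ ⟨ε', a', b'⟩
      refine ⟨min ε ε', lt_min a a', fun p m => m.elim (fun m => (b p m).imp fun d k =>
        ⟨k.1, fun r l => k.2 r (l.trans_le (min_le_left _ _))⟩) fun m => (b' p m).imp fun d k =>
        ⟨k.1, fun r l => k.2 r (l.trans_le (min_le_right _ _))⟩⟩
    · obtain ⟨ε, hε, φ, k⟩ := loc_flow hZ (hU hp)
      exact ⟨_, mem_nhdsWithin_of_mem_nhds k, ε, hε, fun q m =>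
        ⟨fun s => φ (s, q), m.1, fun r l => (m.2 r l).1⟩⟩
  refine ind (P := fun t => (t, x) ∈ Dm Z U) (cv_zero hZ hx) fun t _ =>
    ⟨ε / 2, half_pos hε, fun a ha b _ a1 b1 ⟨c, hc⟩ => ?_⟩
  obtain ⟨d, d0, d1⟩ := k _ (h a ha ⟨c, hc⟩)
  exact (hc.ext hZ (d0.trans (hc.fl_eq hZ right_mem_uIcc)) d1 (t := b)
    (by linarith [abs_sub_le b t a, abs_sub_comm t a])).imp fun _ => And.left

/-- **the domain is open and the flow is smooth** -/
theorem fl_sm (hZ : VOn Z U) (h : (T, x) ∈ Dm Z U) :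
    (∀ᶠ q in 𝓝 (T, x), q ∈ Dm Z U) ∧ S2 (fl Z U) T x := by
  obtain ⟨c, hc⟩ := h
  have key : ∀ (a b ε : ℝ) (φ : ℝ × M → M) (Y : M → M), |b - a| < ε → SP (loc (ch x) Y) (pt x) →
      (∀ᶠ p in 𝓝 x, (a, p) ∈ Dm Z U ∧ Y p = fl Z U (a, p)) → (∀ᶠ p in 𝓝 (Y x), φ (0, p) = p ∧
        ∀ t, |t| < ε → Ce Z U (fun s => φ (s, p)) t ∧ S2 φ t p) →
      (∀ᶠ q in 𝓝 (b, x), q ∈ Dm Z U) ∧ S2 (fl Z U) b x := fun a b ε φ Y h1 h2 h3 h4 => by
    have e : ∀ᶠ q : ℝ × M in 𝓝 (b, x), q ∈ Dm Z U ∧ fl Z U q = φ (q.1 - a, Y q.2) := by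
      filter_upwards [continuousAt_snd.eventually (h3.and ((contAt_of_loc h2.ct).eventually h4)),
        continuousAt_fst.eventually (p := fun r => |r - a| < ε)
          ((isOpen_lt (by fun_prop) continuous_const).mem_nhds h1)] with q ⟨⟨⟨d, hd⟩, k2⟩, k3⟩ k4
      obtain ⟨c', k5, k6⟩ := hd.ext hZ (d := fun s => φ (s, Y q.2))
        (k3.1.trans (k2.trans (hd.fl_eq hZ right_mem_uIcc))) (fun r l => (k3.2 r l).1) k4
      exact ⟨⟨c', k5⟩, (k5.fl_eq hZ right_mem_uIcc).trans k6⟩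
    refine ⟨e.mono fun _ => And.left, S2.congr ?_ (e.mono fun _ => And.right)⟩
    refine S2.comp (Φ := φ) (τ := fun q : ℝ × E n => q.1 - a)
      (Y := fun q : ℝ × E n => loc (ch x) Y q.2) ?_ (by fun_prop) 
      (SP.comp (σ := Prod.snd) (z := (b, pt x)) h2 contDiffAt_snd)
    simpa using (h4.self_of_nhds.2 _ h1).2
  have hx : x ∈ U := (show c 0 = x from hc.1) ▸ (hc.2 0 left_mem_uIcc).1
  refine ind (P := fun t => (∀ᶠ q in 𝓝 (t, x), q ∈ Dm Z U) ∧ S2 (fl Z U) t x) ?_ fun t ht => ?_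
  · obtain ⟨ε, hε, φ, k⟩ := loc_flow hZ hx
    exact key 0 0 ε φ id (by simpa) (sp_symm (ch_mem x) contDiffAt_id)
      ((hZ.op.eventually_mem hx).mono fun p m => ⟨cv_zero hZ m, (fl_zero p).symm⟩) k
  · obtain ⟨ε, hε, φ, k⟩ := loc_flow hZ (hc.2 t ht).1
    obtain ⟨δ, hδ, k'⟩ := Metric.eventually_nhds_iff.1
      ((hc.2 t ht).crv.ct.eventually k.eventually_nhds)
    refine ⟨min (ε / 2) δ, lt_min (half_pos hε) hδ, fun a ha b _ a1 b1 k1 => ?_⟩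
    refine key a b ε φ (fun p => fl Z U (a, p)) (by
      linarith [abs_sub_le b t a, abs_sub_comm t a, min_le_left (ε / 2) δ])
      (SP.comp (σ := fun w => (a, w)) k1.2 (by fun_prop))
      (((Continuous.prodMk_right a).tendsto x).eventually k1.1 |>.mono fun _ m => ⟨m, rfl⟩) ?_
    rw [hc.fl_eq hZ ha]
    exact k' (a1.trans_le (min_le_right _ _))

theorem dm_mono (h : (T, x) ∈ Dm Z U) (ht : t ∈ uIcc 0 T) : (t, x) ∈ Dm Z U :=
  let ⟨c, k⟩ := h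
  ⟨c, k.mono ht⟩

/-- the flow solves the equation -/
theorem fl_crv (hZ : VOn Z U) (h : (t, x) ∈ Dm Z U) : Crv Z (fun s => fl Z U (s, x)) t := by
  obtain ⟨c, hc⟩ := h
  have h1 := hc.2 t right_mem_uIcc
  obtain ⟨ε, hε, φ, k⟩ := loc_flow hZ h1.1
  have k := k.self_of_nhds
  refine Crv.congr (c := fun s => φ (s + -t, c t)) (Crv.shift (c := fun s => φ (s, c t))
    (k.2 _ (by simpa)).1.crv) ?_
  filter_upwards [ball_mem_nhds t hε] with s hs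
  obtain ⟨c', k5, k6⟩ := hc.ext hZ (d := fun s => φ (s, c t)) k.1 (fun r l => (k.2 r l).1) hs
  exact (k5.fl_eq hZ right_mem_uIcc).trans k6

/-- the group law -/
theorem fl_add (hZ : VOn Z U) (h : (T, x) ∈ Dm Z U) (hs : s ∈ uIcc 0 T) (ht : t + s ∈ uIcc 0 T) :
    (t, fl Z U (s, x)) ∈ Dm Z U ∧ fl Z U (t, fl Z U (s, x)) = fl Z U (t + s, x) := by
  obtain ⟨c, hc⟩ := h
  rw [hc.fl_eq hZ hs, hc.fl_eq hZ ht]
  exact ⟨⟨_, hc.shift hs ht⟩, (hc.shift hs ht).fl_eq hZ right_mem_uIcc⟩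

theorem fl_neg (hZ : VOn Z U) (h : (t, x) ∈ Dm Z U) :
    (-t, fl Z U (t, x)) ∈ Dm Z U ∧ fl Z U (-t, fl Z U (t, x)) = x := by
  have := fl_add hZ h right_mem_uIcc (t := -t) (by simp)
  rwa [neg_add_cancel, fl_zero] at this

/-- a function which is multiplied along the flow -/
theorem fl_exp {u : ℝ → ℝ} {a : ℝ}
    (h : ∀ s ∈ uIcc 0 t, HasDerivAt u (a * u s) s) : u t = Real.exp (a * t) * u 0 := by
  have k : ∀ s ∈ uIcc 0 t, HasDerivAt (fun s => Real.exp (-(a * s)) * u s) 0 s := fun s hs => by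
    have := (((hasDerivAt_id' s).const_mul a).neg.exp).fun_mul (h s hs)
    exact this.congr_deriv (by simp only [Pi.neg_apply]; ring)
  have := (convex_uIcc (0 : ℝ) t).norm_image_sub_le_of_norm_hasDerivWithin_le (C := 0)
    (fun s hs => (k s hs).hasDerivWithinAt) (by simp) left_mem_uIcc right_mem_uIcc
  simp only [zero_mul, norm_le_zero_iff, sub_eq_zero, mul_zero, neg_zero, Real.exp_zero,
    one_mul] at this
  rw [← this, ← mul_assoc, ← Real.exp_add, add_neg_cancel, Real.exp_zero, one_mul]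

end Vale.Agent.P366DV
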