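import Vale.Agent.P366DV.Eu1
import Vale.Agent.P366DV.Flow

/-!
# P366DV: the developing map near infinity
-/

open Set Filter Topology Metric
open scoped ContDiff

noncomputable section

namespace Vale.Agent.P366DV

variable {V : Type} [NormedAddCommGroup V] [NormedSpace ℝ V] [FiniteDimensional ℝ V]
  {B : V → V →L[ℝ] V →L[ℝ] ℝ} {Γ : V → V →L[ℝ] V →L[ℝ] V} {X : V → V} {z : V}
  {B0 : V →L[ℝ] V →L[ℝ] ℝ} {Φ : ℝ × V → V} {R C q s : ℝ}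

/-- the flow far out -/
structure Fl (B : V → V →L[ℝ] V →L[ℝ] ℝ) (Γ : V → V →L[ℝ] V →L[ℝ] V) (X : V → V)
    (Φ : ℝ × V → V) (R : ℝ) : Prop where
  R1 : 1 ≤ R
  cn : ∀ z, R ≤ ‖z‖ → Cn B Γ X z
  f0 : ∀ z, R ≤ ‖z‖ → Φ (0, z) = z
  sm : ∀ z, R ≤ ‖z‖ → ∀ s ≥ 0, ContDiffAt ℝ ∞ Φ (s, z) ∧ (R ≤ ‖Φ (s, z)‖ → Sl X Φ s z)

theorem small (hq : 0 < q) (K : ℝ) {ε : ℝ} (hε : 0 < ε) (R : ℝ) :
    ∃ R' ≥ R, ∀ r ≥ R', K * r ^ (-q) ≤ ε := by
  have : Tendsto (fun r : ℝ => K * r ^ (-q)) atTop (𝓝 0) := by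
    simpa using (tendsto_rpow_neg_atTop hq).const_mul K
  obtain ⟨a, ha⟩ := eventually_atTop.1 (this.eventually (ge_mem_nhds hε))
  exact ⟨max R a, le_max_left _ _, fun r hr => ha r ((le_max_right _ _).trans hr)⟩

/-- the Euler field is close to the position -/
theorem grow (hR : 1 ≤ R) (h : ∀ z, R ≤ ‖z‖ → Cn B Γ X z) (hq : 0 < q) (hq' : q ≤ 1 / 2) (hC : 0 ≤ C)
    (hΓ : ∀ z, R ≤ ‖z‖ → ‖Γ z‖ ≤ C * ‖z‖ ^ (-q) / ‖z‖) :
    ∃ K ≥ 0, ∃ R' ≥ R, ∀ z, R' ≤ ‖z‖ → ‖X z - z‖ ≤ K * ‖z‖ ^ (-q) * ‖z‖ := by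
  have := FiniteDimensional.proper_real V
  obtain ⟨R', h1, h2⟩ := small hq C (show (0 : ℝ) < 1 / 8 by norm_num) R
  have r1 : 1 ≤ R' := hR.trans h1
  obtain ⟨K0, h3⟩ := (isCompact_sphere (0 : V) R').exists_bound_of_continuousOn
    (f := fun z => X z - z) fun z m => ((h z (by rw [mem_sphere_zero_iff_norm.1 m]; exact h1)
      ).sX.continuousAt.sub continuousAt_id).continuousWithinAt
  obtain ⟨K, k1, k2⟩ : ∃ K, |K0| ≤ K ∧ 3 * C + 1 ≤ K := ⟨_, le_max_left _ _, le_max_right _ _⟩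
  refine ⟨K, by linarith, R', h1, fun z hz => ?_⟩
  have z0 : 0 < ‖z‖ := by linarith
  obtain ⟨ν, n1, n2⟩ : ∃ ν : V, ‖ν‖ = 1 ∧ ‖z‖ • ν = z :=
    ⟨‖z‖⁻¹ • z, norm_smul_inv_norm (norm_pos_iff.1 z0), smul_inv_smul₀ z0.ne' z⟩
  have nr : ∀ r : ℝ, R' ≤ r → ‖r • ν‖ = r := fun r hr => by
    rw [norm_smul, n1, mul_one, Real.norm_of_nonneg (by linarith)]
  have cn : ∀ r, R' ≤ r → Cn B Γ X (r • ν) := fun r hr => h _ (by rw [nr r hr]; linarith)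
  have d : ∀ r, R' ≤ r → HasDerivAt (fun r : ℝ => X (r • ν) - r • ν)
      (-Γ (r • ν) ν (X (r • ν))) r := fun r hr => by
    have l : HasDerivAt (fun r : ℝ => r • ν) ν r := by simpa using (hasDerivAt_id r).smul_const ν
    refine ((HasFDerivAt.comp_hasDerivAt (f := fun r : ℝ => r • ν) r
      ((cn r hr).sX.differentiableAt (by simp)).hasFDerivAt l).sub l).congr_deriv ?_
    rw [(cn r hr).dX]; abel
  have b : ∀ r, R' ≤ r → HasDerivAt (fun r : ℝ => K * r ^ (-q) * r) (K * (1 - q) * r ^ (-q)) r :=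
    fun r hr => by
      have r0 : r ≠ 0 := by linarith [hr] |> fun (a : 0 < r) => a.ne'
      refine (((Real.hasDerivAt_rpow_const (p := -q) (Or.inl r0)).const_mul K).fun_mul
        (hasDerivAt_id' r)).congr_deriv ?_
      rw [Real.rpow_sub_one r0]; field_simp; ring
  have := image_norm_le_of_norm_deriv_right_lt_deriv_boundary' (a := R') (b := ‖z‖)
    (fun r m => (d r m.1).continuousAt.continuousWithinAt) (fun r m => (d r m.1).hasDerivWithinAt)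
    ?_ (fun r m => (b r m.1).continuousAt.continuousWithinAt)
    (fun r m => (b r m.1).hasDerivWithinAt) ?_ ⟨hz, le_rfl⟩
  · simpa only [n2] using this
  · have a1 : 1 ≤ R' ^ (-q) * R' := by
      rw [← Real.rpow_add_one (by linarith)]
      exact Real.one_le_rpow r1 (by linarith)
    have := h3 (R' • ν) (mem_sphere_zero_iff_norm.2 (nr _ le_rfl))
    nlinarith [le_abs_self K0, abs_nonneg K0]
  · intro r m e
    have r0 : 0 < r := by linarith [m.1]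
    have t0 := Real.rpow_pos_of_pos r0 (-q)
    have a1 := hΓ (r • ν) (by rw [nr r m.1]; linarith [m.1])
    have a2 : ‖X (r • ν)‖ ≤ (K * r ^ (-q) + 1) * r := by
      linarith [norm_le_norm_sub_add (X (r • ν)) (r • ν), nr r m.1]
    have a3 := (Γ (r • ν)).le_opNorm₂ ν (X (r • ν))
    rw [nr r m.1, le_div_iff₀ r0] at a1
    rw [n1, mul_one] at a3
    have a4 : ‖Γ (r • ν)‖ * ‖X (r • ν)‖ ≤ C * r ^ (-q) * (K * r ^ (-q) + 1) := by
      have : 0 ≤ K * r ^ (-q) + 1 := by nlinarith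
      nlinarith [mul_le_mul_of_nonneg_left a2 (norm_nonneg (Γ (r • ν))),
        mul_le_mul_of_nonneg_right a1 this]
    rw [norm_neg]
    nlinarith [h2 r m.1, mul_pos t0 (show 0 < K by linarith),
      mul_le_mul_of_nonneg_right k2 t0.le, mul_nonneg hC t0.le]

/-- the bounds in the form which is used along the flow -/
def Bd (B : V → V →L[ℝ] V →L[ℝ] ℝ) (Γ : V → V →L[ℝ] V →L[ℝ] V) (X : V → V)
    (B0 : V →L[ℝ] V →L[ℝ] ℝ) (R C q : ℝ) : Prop :=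
  ∀ s ≥ 0, ∀ p, Real.exp s * R ≤ ‖p‖ → ‖X p - p‖ ≤ q / 16 * Real.exp (-(q * s)) * ‖p‖ ∧
    ‖fderiv ℝ X p - ContinuousLinearMap.id ℝ V‖ ≤ q / 16 * Real.exp (-(q * s)) ∧
    Real.exp s * ‖Γ p‖ ≤ C * Real.exp (-(q * s)) ∧ ‖B p - B0‖ ≤ C * Real.exp (-(q * s))

/-- the flow and the bounds -/
structure Fb (B : V → V →L[ℝ] V →L[ℝ] ℝ) (Γ : V → V →L[ℝ] V →L[ℝ] V) (X : V → V)
    (B0 : V →L[ℝ] V →L[ℝ] ℝ) (Φ : ℝ × V → V) (R C q : ℝ) : Prop where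
  fl : Fl B Γ X Φ R
  q0 : 0 < q
  bd : Bd B Γ X B0 R C q

theorem bd_of (hR : 1 ≤ R) (h : ∀ z, R ≤ ‖z‖ → Cn B Γ X z) (hq : 0 < q) (hq' : q ≤ 1 / 2)
    (hC : 0 ≤ C) (hb : ∀ z, R ≤ ‖z‖ → ‖Γ z‖ ≤ C * ‖z‖ ^ (-q) / ‖z‖ ∧ ‖B z - B0‖ ≤ C * ‖z‖ ^ (-q)) :
    ∃ R' ≥ R, Bd B Γ X B0 R' C q := by
  obtain ⟨K, K0, R1, h1, h2⟩ := grow hR h hq hq' hC fun z m => (hb z m).1
  obtain ⟨R2, h3, h4⟩ := small hq ((C + 1) * (K + 1)) (show 0 < q / 16 by linarith) R1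
  have r1 : 1 ≤ R2 := hR.trans (h1.trans h3)
  refine ⟨R2, h1.trans h3, fun s hs p hp => ?_⟩
  have e1 := Real.one_le_exp hs
  have p1 : R2 ≤ ‖p‖ := by nlinarith
  have p0 : 0 < ‖p‖ := by linarith
  have pe : Real.exp s ≤ ‖p‖ := by nlinarith
  have e0 := Real.exp_pos (-(q * s))
  have t0 := Real.rpow_pos_of_pos p0 (-q)
  have t1 : ‖p‖ ^ (-q) ≤ Real.exp (-(q * s)) * R2 ^ (-q) := by
    rw [show -(q * s) = s * -q by ring, Real.exp_mul, ← Real.mul_rpow (by linarith) (by linarith)]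
    exact Real.rpow_le_rpow_of_nonpos (by positivity) hp (by linarith)
  have t2 : R2 ^ (-q) ≤ 1 := Real.rpow_le_one_of_one_le_of_nonpos r1 (by linarith)
  have t3 : ‖p‖ ^ (-q) ≤ Real.exp (-(q * s)) := t1.trans (mul_le_of_le_one_right e0.le t2)
  have t4 : (C + 1) * (K + 1) * ‖p‖ ^ (-q) ≤ q / 16 * Real.exp (-(q * s)) := by
    nlinarith [mul_le_mul_of_nonneg_left t1 (show 0 ≤ (C + 1) * (K + 1) by positivity),
      mul_le_mul_of_nonneg_right (h4 R2 le_rfl) e0.le]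
  have t5 : ‖p‖ ^ (-q) ≤ 1 := Real.rpow_le_one_of_one_le_of_nonpos (by linarith) (by linarith)
  have a1 := h2 p (h3.trans p1)
  obtain ⟨a2, a3⟩ := hb p (h1.trans (h3.trans p1))
  rw [le_div_iff₀ p0] at a2
  have ck := mul_nonneg (mul_nonneg hC K0) t0.le
  refine ⟨a1.trans (mul_le_mul_of_nonneg_right (by nlinarith [mul_nonneg hC t0.le]) p0.le),
    ContinuousLinearMap.opNorm_le_bound _ (by positivity) fun v => ?_,
    by nlinarith [mul_le_mul_of_nonneg_right pe (norm_nonneg (Γ p)),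
      mul_le_mul_of_nonneg_left t3 hC], a3.trans (mul_le_mul_of_nonneg_left t3 hC)⟩
  have a4 : ‖X p‖ ≤ (K + 1) * ‖p‖ := by
    nlinarith [norm_le_norm_sub_add (X p) p, mul_le_mul_of_nonneg_left t5 (mul_nonneg K0 p0.le)]
  have a5 : ‖Γ p‖ * ‖X p‖ ≤ q / 16 * Real.exp (-(q * s)) := by
    nlinarith [mul_le_mul_of_nonneg_left a4 (norm_nonneg (Γ p)), mul_nonneg K0 t0.le,
      mul_le_mul_of_nonneg_right a2 (show 0 ≤ K + 1 by linarith)]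
  rw [sub_apply, (h p (h1.trans (h3.trans p1))).dX, ContinuousLinearMap.id_apply,
    sub_sub_cancel_left, norm_neg]
  nlinarith [(Γ p).le_opNorm₂ v (X p), mul_le_mul_of_nonneg_right a5 (norm_nonneg v)]

end Vale.Agent.P366DV
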