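import Vale.Agent.P366DV.Defs
import Vale.Agent.P366M.Int
import Vale.Agent.P366M.End1
import Vale.Agent.P366M.Calc2

/-!
# P366DV: tensors on an open set agree locally with global ones
-/

open Set Filter Topology
open scoped ContDiff
open Vale.Agent.P366 Vale.Agent.P366.Stmt
open Vale.Agent.P366M

noncomputable section

namespace Vale.Agent.P366DV

variable {n : ℕ} {M : Type}

section L0

variable [Mf0 n M] {U : Set M} {h T : Fld n M} {x : M} {e : Ch n M} {y : E n} {u : M → ℝ}

/-- covariant tensors which are smooth at a point -/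
def TAt (T : Fld n M) (x : M) : Prop :=
  ∀ i j, ContDiffAt ℝ ∞ (fun y => rep (ch x) T y i j) (pt x)

theorem TAt.lc (he : e ∈ At M) (hT : TAt T (e.symm y)) (i j : Fin n) :
    ContDiffAt ℝ ∞ (fun y => rep e T y i j) y := by
  have h1 := tm_cd he (ch_mem _) (mem_ch (e.symm y))
  refine (ContDiffAt.sum (s := Finset.univ) fun k _ => ContDiffAt.sum (s := Finset.univ)
    fun l _ => ((cd_jac h1 k i).mul (cd_jac h1 l j)).mul
      ((hT k l).comp y h1)).congr_of_eventuallyEq ?_
  exact (ev_src he (mem_ch _)).mono fun z hz => rep_tm T he (ch_mem _) hz i j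

theorem TAt.congr {S : Fld n M} (hT : TAt T x) (e : S =ᶠ[𝓝 x] T) : TAt S x := fun i j =>
  (hT i j).congr_of_eventuallyEq ((rep_congr_pt e).mono fun _ hz => by simp only [hz])

theorem TAt.smul (hu : CAt ∞ u x) (hT : TAt T x) : TAt (fun x i j => u x * T x i j) x :=
  fun i j => by rw [rep_smul]; exact ContDiffAt.mul hu (hT i j)

theorem TAt.add {S : Fld n M} (hT : TAt T x) (hS : TAt S x) :
    TAt (fun x i j => T x i j + S x i j) x :=
  fun i j => by rw [rep_add]; exact ContDiffAt.add (hT i j) (hS i j)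

theorem _root_.Vale.Agent.P366M.SmT.tAt (hT : SmT T) (x : M) : TAt T x := fun i j =>
  ContDiff.contDiffAt (hT _ (ch_mem x) i j)

theorem smT_of_tAt (hT : ∀ x, TAt T x) : SmT T :=
  smT_of fun x => ⟨ch x, ch_mem x, mem_ch x, hT x⟩

/-- a function which is smooth near a point agrees there with a smooth function -/
theorem ext_fun (hu : ∀ᶠ z in 𝓝 x, CAt ∞ u z) : ∃ v, P366M.Smooth v ∧ u =ᶠ[𝓝 x] v := by
  obtain ⟨O, h1, h2, h3⟩ := eventually_nhds_iff.1 hu
  obtain ⟨χ, s, -, hs, -, h4⟩ := exists_cut (isCompact_singleton (x := x)) h2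
    (singleton_subset_iff.2 h3)
  refine ⟨fun p => χ p * u p, cd_of_cAt le_rfl fun p => ?_,
    (h4 x rfl).mono fun p hp => by simp only [hp, one_mul]⟩
  by_cases hp : p ∈ O
  · exact (CD.contDiffAt s).mul (h1 p hp)
  · refine (cAt_const (c := (0 : ℝ))).congr_of_eventuallyEq ?_
    filter_upwards [notMem_tsupport_iff_eventuallyEq.1 fun h => hp (hs h)] with w hw
    rw [hw, Pi.zero_apply, zero_mul]

theorem MOn.conf (hh : MOn h U) (hu : ∀ x ∈ U, CAt ∞ u x ∧ 0 < u x) :
    MOn (fun x i j => u x * h x i j) U :=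
  ⟨hh.op, fun x hx => TAt.smul (hu x hx).1 (hh.sm x hx), fun x hx i j => by rw [hh.sy x hx],
    fun x hx => (hh.pos x hx).smul (hu x hx).2⟩

theorem chr_congr {g : Fld n M} (e : h =ᶠ[𝓝 x] g) (k i j : Fin n) :
    P366M.chr h k i j x = P366M.chr g k i j x := P366Z.chr_of_ev (rep_congr_pt e) k i j

theorem hess_met {g : Fld n M} (e : h =ᶠ[𝓝 x] g) (u : M → ℝ) :
    P366M.hess h u x = P366M.hess g u x := by
  funext i j
  simp only [P366M.hess, chr_congr e]

theorem ip_met {g : Fld n M} (e : h x = g x) (u v : M → ℝ) : ip h u v x = ip g u v x := by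
  simp only [ip, P366M.up, P366M.mat, e]

theorem gr_met {g : Fld n M} (e : h x = g x) (u : M → ℝ) (i : Fin n) :
    gr h u i x = gr g u i x := by
  simp only [gr, P366M.up, P366M.mat, e]

end L0

section L1

variable [Mf n M] {U : Set M} {h : Fld n M} {x : M}

/-- a metric on an open set agrees near each point with a global metric -/
theorem MOn.lm (hh : MOn h U) (hx : x ∈ U) : ∃ g, Met g ∧ h =ᶠ[𝓝 x] g := by
  obtain ⟨χ, s, -, hs, hb, h4⟩ := exists_cut (isCompact_singleton (x := x)) hh.op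
    (singleton_subset_iff.2 hx)
  have z : ∀ p ∉ U, χ =ᶠ[𝓝 p] 0 := fun p hp =>
    notMem_tsupport_iff_eventuallyEq.1 fun h => hp (hs h)
  have b := bg_met (M := M)
  refine ⟨fun p i j => χ p * h p i j + (1 - χ p) * bg p i j, ⟨smT_of_tAt fun p => TAt.add ?_
    (TAt.smul (cAt_const.sub (CD.contDiffAt s)) (b.sm.tAt p)), fun p i j => ?_, fun p => ?_⟩,
    (h4 x rfl).mono fun p hp => by simp [hp]⟩
  · by_cases hp : p ∈ U
    · exact TAt.smul (CD.contDiffAt s) (hh.sm p hp)
    · exact (smT_zero.tAt p).congr ((z p hp).mono fun w hw => by simp [hw])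
  · by_cases hp : p ∈ U
    · rw [hh.sy p hp, b.sy]
    · rw [(z p hp).eq_of_nhds, b.sy]; simp
  · rcases (hb p).1.eq_or_lt with k | k
    · have := b.pos p
      simpa [P366M.mat, ← k] using this
    · exact ((hh.pos p (hs (subset_tsupport _ k.ne'))).smul k).add_posSemidef
        ((b.pos p).posSemidef.smul (sub_nonneg.2 (hb p).2))

end L1

section L2

variable [Mfe n M] {U : Set M} {V : M → ℝ} {v : ℝ}

theorem out_of (hf : ∃ R, ∀ x : M, R < ‖px x‖ → x ∈ U) (hU : IsOpen U) (h1 : ∀ x ∈ U, v < V x)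
    (hc : ContinuousOn V (closure U)) (h2 : ∀ x ∈ frontier U, V x ≤ v) : Out U V v := by
  refine ⟨hf, h1, fun t ht R => (isCompact_px M R).of_isClosed_subset ?_ fun x hx => hx.2.2⟩
  have : {x ∈ U | t ≤ V x ∧ ‖px x‖ ≤ R} = (closure U ∩ V ⁻¹' Ici t) ∩ {x | ‖px x‖ ≤ R} := by
    refine subset_antisymm (fun x hx => ⟨⟨subset_closure hx.1, hx.2.1⟩, hx.2.2⟩)
      fun x hx => ⟨by_contra fun k => ?_, hx.1.2, hx.2⟩
    exact (ht.trans_le hx.1.2).not_ge (h2 x ⟨hx.1.1, by rwa [hU.interior_eq]⟩)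
  rw [this]
  exact (hc.preimage_isClosed_of_isClosed isClosed_closure isClosed_Ici).inter
    (isClosed_le cont_npx continuous_const)

end L2

end Vale.Agent.P366DV
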