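import Vale.Agent.P366DV.Eu2
import Vale.Agent.P366DV.Loc
import Vale.Agent.P366D.Map

/-!
# P366DV: from components to bilinear maps
-/

open Set Filter Topology Metric
open scoped ContDiff
open Vale.Agent.P366 Vale.Agent.P366.Stmt Vale.Agent.P366Z

noncomputable section

namespace Vale.Agent.P366DV

variable {n : ℕ} {G G' : Field n} {F : E n → ℝ} {z : E n}

/-- the coordinate functions -/
abbrev pj (i : Fin n) : E n →L[ℝ] ℝ := EuclideanSpace.proj i

/-- the bilinear form of a matrix -/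
def bm (A : Fin n → Fin n → ℝ) : E n →L[ℝ] E n →L[ℝ] ℝ :=
  ∑ i, ∑ j, A i j • (pj i).smulRight (pj j)

/-- the metric, the connection and the gradient -/
def bf (G : Field n) (z : E n) : E n →L[ℝ] E n →L[ℝ] ℝ := bm (G z)
def cn3 (G : Field n) (z : E n) : E n →L[ℝ] E n →L[ℝ] E n := ∑ k, ∑ i, ∑ j,
  chr G k i j z • (pj i).smulRight ((pj j).smulRight (EuclideanSpace.single k (1 : ℝ)))
def gv (G : Field n) (F : E n → ℝ) (z : E n) : E n := WithLp.toLp 2 fun i => gr G F i z

theorem bm_apply (A : Fin n → Fin n → ℝ) (u v : E n) : bm A u v = ∑ i, ∑ j, A i j * u i * v j := by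
  simp [bm, mul_assoc]

theorem bm_single (A : Fin n → Fin n → ℝ) (i j : Fin n) :
    bm A (EuclideanSpace.single i 1) (EuclideanSpace.single j 1) = A i j := by
  simp [bm_apply]

theorem cn3_apply (G : Field n) (z u v : E n) (k : Fin n) :
    cn3 G z u v k = ∑ i, ∑ j, chr G k i j z * u i * v j := by
  simp [cn3, mul_assoc, Pi.single_apply]

theorem bm_sub (A A' : Fin n → Fin n → ℝ) : bm A - bm A' = bm fun i j => A i j - A' i j := by
  ext u v
  simp only [sub_apply, bm_apply, sub_mul, Finset.sum_sub_distrib]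

theorem abs_bm {A : Fin n → Fin n → ℝ} {c : ℝ} (h : ∀ i j, |A i j| ≤ c) (u v : E n) :
    |∑ i, ∑ j, A i j * u i * v j| ≤ n * (n * c) * ‖u‖ * ‖v‖ := by
  refine (norm_sum_le_of_le (E := ℝ) _ fun i _ => norm_sum_le_of_le (E := ℝ)
    (n := fun _ => c * ‖u‖ * ‖v‖) _ fun j _ => ?_).trans (by simp [mul_assoc])
  have := (abs_nonneg _).trans (h i j)
  rw [norm_mul, norm_mul]
  gcongr
  exacts [h i j, PiLp.norm_apply_le u i, PiLp.norm_apply_le v j]

theorem norm_bm {A : Fin n → Fin n → ℝ} {c : ℝ} (hc : 0 ≤ c) (h : ∀ i j, |A i j| ≤ c) :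
    ‖bm A‖ ≤ n * (n * c) := ContinuousLinearMap.opNorm_le_bound₂ _ (by positivity) fun u v => by
  rw [bm_apply]; exact abs_bm h u v

theorem norm_cn3 {c : ℝ} (hc : 0 ≤ c) (h : ∀ k i j, |chr G k i j z| ≤ c) :
    ‖cn3 G z‖ ≤ n * (n * (n * c)) :=
  ContinuousLinearMap.opNorm_le_bound₂ _ (by positivity) fun u v => by
    have : cn3 G z u v = ∑ k, EuclideanSpace.single k (cn3 G z u v k) := by
      ext k; simp [Pi.single_apply]
    rw [this]
    refine (norm_sum_le_of_le (n := fun _ => n * (n * c) * ‖u‖ * ‖v‖) _ fun k _ => ?_).trans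
      (by simp [mul_assoc])
    rw [PiLp.norm_single, cn3_apply]
    exact abs_bm (h k) u v

theorem bm_pos {A : Matrix (Fin n) (Fin n) ℝ} (h : A.PosDef) {u : E n} (hu : u ≠ 0) :
    0 < bm A u u := by
  have := h.dotProduct_mulVec_pos (x := u.ofLp) fun k => hu (by ext i; exact congrFun k i)
  exact this.trans_eq ((bm_apply A u u).trans (P366M.quad_dot A _ _)).symm

theorem cn_met (hg : Met G) (hF : ContDiffAt ℝ ∞ F z) (hh : hess G F z = G z) :
    Cn (bf G) (cn3 G) (gv G F) z := by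
  have d : ∀ i j, DifferentiableAt ℝ (fun y => G y i j) z := fun i j => (hg.sm i j).diff z
  have sB : ContDiffAt ℝ ∞ (bf G) z := ContDiff.contDiffAt (contDiff_clm_apply_iff.2 fun u =>
    contDiff_clm_apply_iff.2 fun v => by
      simp only [bf, bm_apply]
      exact ContDiff.sum fun i _ => ContDiff.sum fun j _ =>
        (ContDiff.mul (hg.sm i j) contDiff_const).mul contDiff_const)
  have sΓ : ContDiffAt ℝ ∞ (cn3 G) z := ContDiff.contDiffAt (contDiff_clm_apply_iff.2 fun u =>
    contDiff_clm_apply_iff.2 fun v => contDiff_euclidean.2 fun k => by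
      simp only [cn3_apply]
      exact ContDiff.sum fun i _ => ContDiff.sum fun j _ =>
        (ContDiff.mul (hg.sm_chr k i j) contDiff_const).mul contDiff_const)
  have sX : ContDiffAt ℝ ∞ (gv G F) z :=
    contDiffAt_euclidean.2 fun i => hg.contDiffAt_gr hF (by simp) le_rfl i
  refine ⟨sB, sΓ, sX, fun u v => ?_,
    fun u hu => bm_pos (hg.pos z) hu, fun u v => ?_, fun w u v => ?_, fun v => ?_⟩
  · rw [bf, bm_apply, bm_apply, Finset.sum_comm]
    exact Finset.sum_congr rfl fun i _ => Finset.sum_congr rfl fun j _ => by rw [hg.sy]; ring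
  · ext k
    rw [cn3_apply, cn3_apply, Finset.sum_comm]
    exact Finset.sum_congr rfl fun i _ => Finset.sum_congr rfl fun j _ => by rw [hg.chr_sy]; ring
  · have h1 := ((sB.differentiableAt (by simp)).hasFDerivAt.clm_apply
      (hasFDerivAt_const u z)).clm_apply (hasFDerivAt_const v z)
    have h2 := HasFDerivAt.fun_sum (u := Finset.univ) fun i _ => HasFDerivAt.fun_sum
      (u := Finset.univ) fun j _ => ((d i j).hasFDerivAt.mul_const (u i)).mul_const (v j)
    have h3 := congrArg (fun L => L w) (h1.unique (h2.congr_of_eventuallyEq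
      (.of_forall fun y => bm_apply (G y) u v)))
    simp only [ContinuousLinearMap.comp_zero, zero_add, ContinuousLinearMap.flip_apply] at h3
    rw [h3]
    simp only [sum_apply, smul_apply, smul_eq_mul,
      fderiv_eq_sum (d _ _), hg.pd_g, bf, bm_apply, cn3_apply, Finset.mul_sum, Finset.sum_mul, mul_add, Finset.sum_add_distrib]
    congr 1
    · refine Eq.trans ?_ (Finset.sum_congr rfl fun l _ => Finset.sum_congr rfl fun j _ =>
        Finset.sum_comm).symm
      refine Eq.trans ?_ (Finset.sum_congr rfl fun l _ => Finset.sum_comm).symm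
      refine Eq.trans ?_ Finset.sum_comm.symm
      refine Finset.sum_congr rfl fun i _ => ?_
      refine Eq.trans ?_ Finset.sum_comm.symm
      refine Finset.sum_congr rfl fun j _ => Finset.sum_comm.trans (Finset.sum_congr rfl
        fun l _ => Finset.sum_congr rfl fun k _ => ?_)
      rw [hg.sy z j l]; ring
    · refine Finset.sum_congr rfl fun i _ => ?_
      refine Eq.trans ?_ (Finset.sum_congr rfl fun l _ => Finset.sum_comm).symm
      refine Eq.trans ?_ Finset.sum_comm.symm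
      refine Finset.sum_congr rfl fun j _ => Finset.sum_comm.trans (Finset.sum_congr rfl
        fun l _ => Finset.sum_congr rfl fun k _ => ?_)
      ring
  · have h2 : ContDiffAt ℝ 2 F z := hF.of_le (by norm_cast)
    ext i
    rw [fderiv_jac (sX.differentiableAt (by simp)), PiLp.sub_apply, cn3_apply]
    have e : ∀ k, P366M.jac (gv G F) z i k = (if i = k then 1 else 0) -
        ∑ l, chr G i k l z * gr G F l z := fun k => by
      rw [← hg.up_mul i k z, show P366M.jac (gv G F) z i k = _ from hg.pd_gr h2 k i, hh]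
      simp only [hg.sy z k]
    simp only [e, sub_mul, Finset.sum_sub_distrib, Finset.sum_mul, ite_mul, one_mul, zero_mul,
      Finset.sum_ite_eq, Finset.mem_univ, if_true]
    exact congrArg _ (Finset.sum_congr rfl fun k _ => Finset.sum_congr rfl fun l _ => by
      simp only [gv]; ring)

theorem Cn.congr {V : Type} [NormedAddCommGroup V] [NormedSpace ℝ V]
    {B B' : V → V →L[ℝ] V →L[ℝ] ℝ} {Γ Γ' : V → V →L[ℝ] V →L[ℝ] V} {X X' : V → V} {z : V}
    (h : Cn B Γ X z) (e1 : B' =ᶠ[𝓝 z] B) (e2 : Γ' =ᶠ[𝓝 z] Γ) (e3 : X' =ᶠ[𝓝 z] X) :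
    Cn B' Γ' X' z := by
  refine ⟨h.sB.congr_of_eventuallyEq e1, h.sΓ.congr_of_eventuallyEq e2,
    h.sX.congr_of_eventuallyEq e3, ?_, ?_, ?_, ?_, ?_⟩ <;>
    simp only [e1.eq_of_nhds, e2.eq_of_nhds, e3.eq_of_nhds, e1.fderiv_eq, e3.fderiv_eq]
  exacts [h.sy, h.pos, h.syΓ, h.dB, h.dX]

theorem bf_ev (e : G =ᶠ[𝓝 z] G') : bf G =ᶠ[𝓝 z] bf G' := e.mono fun _ a => congrArg bm a

theorem cn3_ev (e : G =ᶠ[𝓝 z] G') : cn3 G =ᶠ[𝓝 z] cn3 G' :=
  e.eventuallyEq_nhds.mono fun _ a => by simp only [cn3, chr_of_ev a]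

theorem pb_bf {φ : E n → E n} (h : DifferentiableAt ℝ φ z) (G : Field n) (i j : Fin n) :
    P366D.pb φ G z i j = bf G (φ z) (fderiv ℝ φ z (EuclideanSpace.single i 1))
      (fderiv ℝ φ z (EuclideanSpace.single j 1)) := by
  simp only [bf, bm_apply, fderiv_jac h, P366D.pb]
  exact Finset.sum_congr rfl fun a _ => Finset.sum_congr rfl fun b _ => by
    simp; ring

/-- the decay of the connection -/
theorem decay {q : ℝ} {h0 : Matrix (Fin n) (Fin n) ℝ} (hq : 0 < q) (h : h0.PosDef)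
    (hb : ∀ i j k, BigO q (fun y => G y i j - h0 i j) ∧ BigO (q + 1) (pd k fun y => G y i j))
    (q' : ℝ) (hq' : q' ≤ q) : ∃ C ≥ 0, ∃ R, ∀ z : E n, R ≤ ‖z‖ →
      ‖cn3 G z‖ ≤ C * ‖z‖ ^ (-q') / ‖z‖ ∧ ‖bf G z - bm h0‖ ≤ C * ‖z‖ ^ (-q') := by
  have ev : ∀ {p : ℝ} {f : E n → ℝ}, BigO p f → ∀ᶠ C in atTop, ∀ᶠ R in atTop, ∀ z : E n, R ≤ ‖z‖ →
      |f z| ≤ C * ‖z‖ ^ (-p) := fun ⟨C, R, a⟩ => (eventually_ge_atTop C).mono fun C' b =>
    (eventually_gt_atTop R).mono fun R' c z d => (a z (c.trans_le d)).trans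
      (mul_le_mul_of_nonneg_right b (Real.rpow_nonneg (norm_nonneg z) _))
  obtain ⟨C, C0, hC⟩ := ((eventually_ge_atTop 0).and (eventually_all.2 fun i => eventually_all.2
    fun j => eventually_all.2 fun k => (ev (hb i j k).1).and (ev (hb i j k).2))).exists
  obtain ⟨R, R1, hR⟩ := ((eventually_ge_atTop 1).and (eventually_all.2 fun i => eventually_all.2
    fun j => eventually_all.2 fun k => (hC i j k).1.and (hC i j k).2)).exists
  have c : ContinuousAt (fun A : Fin n → Fin n → ℝ => fun i j => (Matrix.of A)⁻¹ i j) h0 :=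
    continuousAt_matrix_inv h0 (by
      rw [Ring.inverse_eq_inv']; exact continuousAt_inv₀ h.det_pos.ne')
  obtain ⟨δ, δ0, hδ⟩ := Metric.continuousAt_iff.1 c 1 one_pos
  obtain ⟨R', r1, r2⟩ := small hq C (half_pos δ0) R
  obtain ⟨K, hK⟩ : ∃ K, K = ‖fun i j => (Matrix.of h0)⁻¹ i j‖ + 1 := ⟨_, rfl⟩
  have K0 : 0 ≤ K := by rw [hK]; positivity
  refine ⟨max (n * (n * (n * (n * (K * (3 * C)))))) (n * (n * C)), le_max_of_le_right
    (by positivity), R', fun z hz => ?_⟩
  have z1 : 1 ≤ ‖z‖ := R1.trans (r1.trans hz)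
  have t : ‖z‖ ^ (-q) ≤ ‖z‖ ^ (-q') := Real.rpow_le_rpow_of_exponent_le z1 (by linarith)
  have t0 : 0 ≤ ‖z‖ ^ (-q') := by positivity
  have b0 : ∀ i j, |G z i j - h0 i j| ≤ C * ‖z‖ ^ (-q) := fun i j => (hR i j i).1 z (r1.trans hz)
  have b1 : ∀ i j k, |pd k (fun y => G y i j) z| ≤ C * (‖z‖ ^ (-q') / ‖z‖) := fun i j k => by
    refine ((hR i j k).2 z (r1.trans hz)).trans (mul_le_mul_of_nonneg_left ?_ C0)
    rw [neg_add', Real.rpow_sub_one (by linarith)]
    gcongr
  have b2 : ∀ i j, |up G i j z| ≤ K := fun i j => by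
    have := hδ (x := G z) ((dist_pi_lt_iff δ0).2 fun i => (dist_pi_lt_iff δ0).2 fun j =>
      (b0 i j).trans_lt ((r2 _ hz).trans_lt (half_lt_self δ0)))
    rw [dist_eq_norm] at this
    refine ((norm_le_pi_norm _ j).trans (norm_le_pi_norm
      (fun i j => (Matrix.of (G z))⁻¹ i j) i)).trans ?_
    linarith [norm_sub_norm_le (fun i j => (Matrix.of (G z))⁻¹ i j) fun i j => (Matrix.of h0)⁻¹ i j]
  constructor
  · refine (norm_cn3 (c := n * (K * (3 * C * (‖z‖ ^ (-q') / ‖z‖)))) (by positivity)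
      fun k i j => ?_).trans ?_
    · rw [chr, abs_div, abs_two]
      refine (half_le_self (abs_nonneg _)).trans ((Finset.abs_sum_le_sum_abs _ _).trans
        ((Finset.sum_le_card_nsmul _ _ (K * (3 * C * (‖z‖ ^ (-q') / ‖z‖)))
          fun l _ => ?_).trans (by simp)))
      rw [abs_mul]
      refine mul_le_mul (b2 k l) ?_ (abs_nonneg _) K0
      linarith [abs_sub (pd i (fun y => G y j l) z + pd j (fun y => G y i l) z)
        (pd l (fun y => G y i j) z), abs_add_le (pd i (fun y => G y j l) z)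
        (pd j (fun y => G y i l) z), b1 j l i, b1 i l j, b1 i j l]
    · rw [mul_div_assoc]
      refine le_trans (le_of_eq (by ring)) (mul_le_mul_of_nonneg_right (le_max_left _ _)
        (by positivity))
  · refine ((congrArg norm (bm_sub (G z) h0)).trans_le (norm_bm (by positivity) fun i j => (b0 i j).trans (mul_le_mul_of_nonneg_left t C0))).trans
      (le_trans (le_of_eq (by ring)) (mul_le_mul_of_nonneg_right (le_max_right _ _) t0))

open scoped MatrixOrder Matrix.Norms.L2Operator in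
/-- a square root of a positive matrix -/
theorem exists_L {A : Matrix (Fin n) (Fin n) ℝ} (h : A.PosDef) : ∃ L : E n ≃L[ℝ] E n,
    ∀ u v, bm A u v = ∑ k, L u k * L v k := by
  classical
  obtain ⟨S, s1, s2⟩ := CStarAlgebra.isStrictlyPositive_iff_eq_star_mul_self.mp h.isStrictlyPositive
  refine ⟨(Matrix.toEuclideanLin S |> LinearEquiv.ofInjectiveEndo <| ?_).toContinuousLinearEquiv,
    fun u v => ?_⟩
  · exact fun a b e => by
      have := Matrix.mulVec_injective_of_isUnit s1 (congrArg WithLp.ofLp e)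
      ext i; exact congrFun this i
  · refine ((bm_apply A u v).trans (P366M.quad_dot A _ _)).trans ?_
    rw [s2, ← Matrix.mulVec_mulVec, Matrix.dotProduct_mulVec, Matrix.star_eq_conjTranspose,
      Matrix.conjTranspose_eq_transpose_of_trivial, Matrix.vecMul_transpose]
    rfl

end Vale.Agent.P366DV
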